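import Mathlib

/-!
Truncated inclusion-exclusion (the Bonferroni inequalities) and the resulting
abstract form of Brun's pure sieve.
-/

namespace Vale.Agent.Lib.P015

set_option linter.unusedSectionVars false

open Finset

variable {ι α : Type*} [DecidableEq ι]

/-- The truncated alternating sum of weights over subsets with at most `m` elements. -/
noncomputable def truncSum (S : Finset ι) (w : ι → ℝ) (m : ℕ) : ℝ :=
  ∑ I ∈ S.powerset, if I.card ≤ m then (-1 : ℝ) ^ I.card * ∏ i ∈ I, w i else 0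

/-- Elementary symmetric sums of the weights. -/
noncomputable def eSum (S : Finset ι) (w : ι → ℝ) (j : ℕ) : ℝ :=
  ∑ I ∈ S.powerset, if I.card = j then ∏ i ∈ I, w i else 0

lemma truncSum_empty (w : ι → ℝ) (m : ℕ) : truncSum (∅ : Finset ι) w m = 1 := by
  simp [truncSum]

lemma truncSum_insert_zero {a : ι} {S : Finset ι} (ha : a ∉ S) (w : ι → ℝ) :
    truncSum (insert a S) w 0 = truncSum S w 0 := by
  unfold truncSum
  rw [Finset.sum_powerset_insert ha]
  have : ∑ t ∈ S.powerset, (if (insert a t).card ≤ 0 then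
      (-1 : ℝ) ^ (insert a t).card * ∏ i ∈ insert a t, w i else 0) = 0 := by
    refine Finset.sum_eq_zero fun t _ => ?_
    rw [if_neg]
    simp
  rw [this, add_zero]

lemma truncSum_insert_succ {a : ι} {S : Finset ι} (ha : a ∉ S) (w : ι → ℝ) (m : ℕ) :
    truncSum (insert a S) w (m + 1) = truncSum S w (m + 1) - w a * truncSum S w m := by
  unfold truncSum
  rw [Finset.sum_powerset_insert ha, sub_eq_add_neg, Finset.mul_sum, ← Finset.sum_neg_distrib]
  congr 1
  refine Finset.sum_congr rfl fun t ht => ?_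
  have hat : a ∉ t := fun h => ha (Finset.mem_powerset.mp ht h)
  rw [Finset.card_insert_of_notMem hat, Finset.prod_insert hat]
  by_cases h : t.card ≤ m
  · rw [if_pos h, if_pos (by omega)]
    rw [pow_succ]
    ring
  · rw [if_neg h, if_neg (by omega)]
    simp

lemma eSum_empty_zero (w : ι → ℝ) : eSum (∅ : Finset ι) w 0 = 1 := by
  simp [eSum]

lemma eSum_empty_succ (w : ι → ℝ) (j : ℕ) : eSum (∅ : Finset ι) w (j + 1) = 0 := by
  simp [eSum]

lemma eSum_insert_zero {a : ι} {S : Finset ι} (ha : a ∉ S) (w : ι → ℝ) :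
    eSum (insert a S) w 0 = eSum S w 0 := by
  unfold eSum
  rw [Finset.sum_powerset_insert ha]
  have : ∑ t ∈ S.powerset, (if (insert a t).card = 0 then ∏ i ∈ insert a t, w i else 0) = 0 := by
    refine Finset.sum_eq_zero fun t _ => ?_
    rw [if_neg]
    simp
  rw [this, add_zero]

lemma eSum_insert_succ {a : ι} {S : Finset ι} (ha : a ∉ S) (w : ι → ℝ) (j : ℕ) :
    eSum (insert a S) w (j + 1) = eSum S w (j + 1) + w a * eSum S w j := by
  unfold eSum
  rw [Finset.sum_powerset_insert ha, Finset.mul_sum]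
  congr 1
  refine Finset.sum_congr rfl fun t ht => ?_
  have hat : a ∉ t := fun h => ha (Finset.mem_powerset.mp ht h)
  rw [Finset.card_insert_of_notMem hat, Finset.prod_insert hat]
  by_cases h : t.card = j
  · rw [if_pos h, if_pos (by omega)]
  · rw [if_neg h, if_neg (by omega)]
    simp

lemma truncSum_succ (S : Finset ι) (w : ι → ℝ) (m : ℕ) :
    truncSum S w (m + 1) = truncSum S w m + (-1 : ℝ) ^ (m + 1) * eSum S w (m + 1) := by
  unfold truncSum eSum
  rw [Finset.mul_sum, ← Finset.sum_add_distrib]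
  refine Finset.sum_congr rfl fun t _ => ?_
  by_cases h : t.card ≤ m
  · rw [if_pos h, if_pos (by omega), if_neg (by omega)]
    simp
  · by_cases h2 : t.card = m + 1
    · rw [if_neg h, if_pos (by omega), if_pos h2, h2]
      simp
    · rw [if_neg h, if_neg (by omega), if_neg h2]
      simp

lemma prod_one_sub_le_one (S : Finset ι) (w : ι → ℝ) (h0 : ∀ i ∈ S, 0 ≤ w i)
    (h1 : ∀ i ∈ S, w i ≤ 1) : ∏ i ∈ S, (1 - w i) ≤ 1 :=
  Finset.prod_le_one (fun i hi => by linarith [h1 i hi]) (fun i hi => by linarith [h0 i hi])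

lemma prod_one_sub_nonneg (S : Finset ι) (w : ι → ℝ) (h1 : ∀ i ∈ S, w i ≤ 1) :
    0 ≤ ∏ i ∈ S, (1 - w i) :=
  Finset.prod_nonneg fun i hi => by linarith [h1 i hi]

/-- The Bonferroni inequalities, for weights in `[0,1]`. -/
theorem bonferroni (S : Finset ι) (w : ι → ℝ) :
    (∀ i ∈ S, 0 ≤ w i) → (∀ i ∈ S, w i ≤ 1) → ∀ m : ℕ,
      (Even m → ∏ i ∈ S, (1 - w i) ≤ truncSum S w m) ∧
        (Odd m → truncSum S w m ≤ ∏ i ∈ S, (1 - w i)) := by
  induction S using Finset.induction_on with
  | empty =>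
    intro _ _ m
    simp [truncSum_empty]
  | insert a S ha ih =>
    intro h0 h1 m
    have h0' : ∀ i ∈ S, 0 ≤ w i := fun i hi => h0 i (Finset.mem_insert_of_mem hi)
    have h1' : ∀ i ∈ S, w i ≤ 1 := fun i hi => h1 i (Finset.mem_insert_of_mem hi)
    have ih' := ih h0' h1'
    have ha0 := h0 a (Finset.mem_insert_self a S)
    have ha1 := h1 a (Finset.mem_insert_self a S)
    rw [Finset.prod_insert ha]
    cases m with
    | zero =>
      refine ⟨fun _ => ?_, fun h => absurd h (by decide)⟩
      rw [truncSum_insert_zero ha]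
      have h3 := (ih' 0).1 (by decide)
      have h4 := prod_one_sub_nonneg S w h1'
      calc (1 - w a) * ∏ i ∈ S, (1 - w i) ≤ 1 * ∏ i ∈ S, (1 - w i) := by
            apply mul_le_mul_of_nonneg_right _ h4
            linarith
        _ ≤ _ := by linarith
    | succ m =>
      rw [truncSum_insert_succ ha]
      have hP : (1 - w a) * ∏ i ∈ S, (1 - w i) =
          ∏ i ∈ S, (1 - w i) - w a * ∏ i ∈ S, (1 - w i) := by ring
      rw [hP]
      constructor
      · intro he
        have h5 : Odd m := by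
          rcases Nat.even_or_odd m with h | h
          · exact absurd he (by simpa [Nat.even_add_one] using h)
          · exact h
        have h6 := (ih' (m + 1)).1 he
        have h7 := (ih' m).2 h5
        have h8 := mul_le_mul_of_nonneg_left h7 ha0
        linarith
      · intro ho
        have h5 : Even m := by
          rcases Nat.even_or_odd m with h | h
          · exact h
          · exact absurd ho (by simpa [Nat.odd_add_one] using h)
        have h6 := (ih' (m + 1)).2 ho
        have h7 := (ih' m).1 h5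
        have h8 := mul_le_mul_of_nonneg_left h7 ha0
        linarith

lemma pow_add_ge (a V : ℝ) (ha : 0 ≤ a) (hV : 0 ≤ V) (j : ℕ) :
    V ^ (j + 1) + (j + 1) * a * V ^ j ≤ (a + V) ^ (j + 1) := by
  induction j with
  | zero => simp; linarith
  | succ j ih =>
    have h1 : (a + V) ^ (j + 1 + 1) = (a + V) ^ (j + 1) * (a + V) := pow_succ _ _
    rw [h1]
    have h2 := mul_le_mul_of_nonneg_right ih (by positivity : 0 ≤ a + V)
    refine le_trans ?_ h2
    have h3 : 0 ≤ (j + 1 : ℝ) * a * a * V ^ j := by positivity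
    have h4 : V ^ (j + 1) = V ^ j * V := pow_succ _ _
    have h5 : V ^ (j + 1 + 1) = V ^ j * V * V := by rw [pow_succ, pow_succ]
    rw [h5, h4]
    push_cast
    nlinarith [h3]

/-- Bound for elementary symmetric sums by powers of the sum of weights. -/
lemma eSum_le (S : Finset ι) (w : ι → ℝ) (h0 : ∀ i ∈ S, 0 ≤ w i) (j : ℕ) :
    eSum S w j * (j.factorial : ℝ) ≤ (∑ i ∈ S, w i) ^ j := by
  induction S using Finset.induction_on generalizing j with
  | empty =>
    cases j with
    | zero => simp [eSum_empty_zero]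
    | succ j => simp [eSum_empty_succ]
  | insert a S ha ih =>
    have h0' : ∀ i ∈ S, 0 ≤ w i := fun i hi => h0 i (Finset.mem_insert_of_mem hi)
    have ha0 := h0 a (Finset.mem_insert_self a S)
    rw [Finset.sum_insert ha]
    set V := ∑ i ∈ S, w i with hV
    have hV0 : 0 ≤ V := Finset.sum_nonneg h0'
    cases j with
    | zero =>
      rw [eSum_insert_zero ha]
      have := ih h0' 0
      simpa using this
    | succ j =>
      rw [eSum_insert_succ ha]
      have h1 := ih h0' (j + 1)
      have h2 := ih h0' j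
      have h4 := pow_add_ge (w a) V ha0 hV0 j
      have h5 : ((j + 1).factorial : ℝ) = (j + 1) * (j.factorial : ℝ) := by
        rw [Nat.factorial_succ]; push_cast; ring
      have h6 := mul_le_mul_of_nonneg_left h2 (by positivity : 0 ≤ (j + 1 : ℝ) * w a)
      calc (eSum S w (j + 1) + w a * eSum S w j) * ((j + 1).factorial : ℝ)
          = eSum S w (j + 1) * ((j + 1).factorial : ℝ)
            + (j + 1 : ℝ) * w a * (eSum S w j * (j.factorial : ℝ)) := by
            rw [h5]; ring
        _ ≤ V ^ (j + 1) + (j + 1 : ℝ) * w a * V ^ j := by linarith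
        _ ≤ _ := h4

/-- Truncation at an even level overestimates by at most the next symmetric sum. -/
lemma truncSum_le (S : Finset ι) (w : ι → ℝ) (h0 : ∀ i ∈ S, 0 ≤ w i) (h1 : ∀ i ∈ S, w i ≤ 1)
    (r : ℕ) :
    truncSum S w (2 * r) ≤ ∏ i ∈ S, (1 - w i) +
      (∑ i ∈ S, w i) ^ (2 * r + 1) / ((2 * r + 1).factorial : ℝ) := by
  have h2 := (bonferroni S w h0 h1 (2 * r + 1)).2 ⟨r, rfl⟩
  rw [truncSum_succ] at h2
  have h3 : (-1 : ℝ) ^ (2 * r + 1) = -1 := Odd.neg_one_pow ⟨r, rfl⟩
  rw [h3] at h2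
  have h4 := eSum_le S w h0 (2 * r + 1)
  have h5 : (0 : ℝ) < ((2 * r + 1).factorial : ℝ) := by positivity
  have h6 : eSum S w (2 * r + 1) ≤
      (∑ i ∈ S, w i) ^ (2 * r + 1) / ((2 * r + 1).factorial : ℝ) := by
    rw [le_div_iff₀ h5]; exact h4
  linarith

/-- The indicator of the empty set as a lower bound of a truncated sum. -/
lemma indicator_le_truncSum (U : Finset ι) (r : ℕ) :
    (if U = ∅ then (1 : ℝ) else 0) ≤ truncSum U (fun _ => (1 : ℝ)) (2 * r) := by
  have h := (bonferroni U (fun _ => (1 : ℝ)) (fun _ _ => zero_le_one) (fun _ _ => le_rfl)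
    (2 * r)).1 ⟨r, by ring⟩
  by_cases hU : U = ∅
  · subst hU
    rw [if_pos rfl, truncSum_empty]
  · rw [if_neg hU]
    refine le_trans ?_ h
    simp only [sub_self]
    obtain ⟨x, hx⟩ := Finset.nonempty_iff_ne_empty.mpr hU
    rw [Finset.prod_eq_zero hx rfl]

/-- Abstract form of the pure sieve. -/
theorem brun_abstract {α : Type*} (Ω : Finset α) (P : Finset ι) (E : ι → α → Prop)
    [∀ i a, Decidable (E i a)] (X : ℝ) (hX : 0 ≤ X) (w : ι → ℝ)
    (h0 : ∀ i ∈ P, 0 ≤ w i) (h1 : ∀ i ∈ P, w i ≤ 1) (R : Finset ι → ℝ) (r : ℕ)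
    (hR : ∀ I ∈ P.powerset, I.card ≤ 2 * r →
      |((Ω.filter (fun a => ∀ i ∈ I, E i a)).card : ℝ) - X * ∏ i ∈ I, w i| ≤ R I) :
    ((Ω.filter (fun a => ∀ i ∈ P, ¬ E i a)).card : ℝ) ≤
      X * (∏ i ∈ P, (1 - w i) + (∑ i ∈ P, w i) ^ (2 * r + 1) / ((2 * r + 1).factorial : ℝ)) +
        ∑ I ∈ P.powerset, if I.card ≤ 2 * r then R I else 0 := by
  classical
  -- pointwise inequality
  have hpt : ∀ a ∈ Ω, (if (∀ i ∈ P, ¬ E i a) then (1 : ℝ) else 0) ≤
      ∑ I ∈ P.powerset, if I.card ≤ 2 * r then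
        (-1 : ℝ) ^ I.card * (if (∀ i ∈ I, E i a) then (1 : ℝ) else 0) else 0 := by
    intro a _
    have h2 := indicator_le_truncSum (P.filter (fun i => E i a)) r
    have h3 : (P.filter (fun i => E i a) = ∅) ↔ ∀ i ∈ P, ¬ E i a := by
      rw [Finset.filter_eq_empty_iff]
    have h4 : (if (∀ i ∈ P, ¬ E i a) then (1 : ℝ) else 0) =
        if P.filter (fun i => E i a) = ∅ then (1 : ℝ) else 0 := by
      simp only [h3]
    rw [h4]
    refine h2.trans (le_of_eq ?_)
    unfold truncSum
    have h5 : (P.filter (fun i => E i a)).powerset =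
        P.powerset.filter (fun I => ∀ i ∈ I, E i a) := by
      ext I
      simp only [Finset.mem_powerset, Finset.mem_filter, Finset.subset_iff]
      constructor
      · intro h
        exact ⟨fun x hx => (h hx).1, fun x hx => (h hx).2⟩
      · rintro ⟨h6, h7⟩ x hx
        exact ⟨h6 hx, h7 x hx⟩
    rw [h5, Finset.sum_filter]
    refine Finset.sum_congr rfl fun I _ => ?_
    by_cases h6 : ∀ i ∈ I, E i a
    · simp only [if_pos h6]; split_ifs <;> simp
    · simp only [if_neg h6]; split_ifs <;> simp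
  -- sum over Ω
  have hcard : ((Ω.filter (fun a => ∀ i ∈ P, ¬ E i a)).card : ℝ) =
      ∑ a ∈ Ω, (if (∀ i ∈ P, ¬ E i a) then (1 : ℝ) else 0) := by
    rw [Finset.card_filter]; push_cast; rfl
  rw [hcard]
  have hsum := Finset.sum_le_sum hpt
  refine hsum.trans ?_
  rw [Finset.sum_comm]
  have hN : ∀ I ∈ P.powerset,
      (∑ a ∈ Ω, if I.card ≤ 2 * r then
        (-1 : ℝ) ^ I.card * (if (∀ i ∈ I, E i a) then (1 : ℝ) else 0) else 0) ≤
      X * (if I.card ≤ 2 * r then (-1 : ℝ) ^ I.card * ∏ i ∈ I, w i else 0) +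
        (if I.card ≤ 2 * r then R I else 0) := by
    intro I hI
    by_cases hc : I.card ≤ 2 * r
    · simp only [if_pos hc]
      rw [← Finset.mul_sum]
      have h7 : ∑ a ∈ Ω, (if (∀ i ∈ I, E i a) then (1 : ℝ) else 0) =
          ((Ω.filter (fun a => ∀ i ∈ I, E i a)).card : ℝ) := by
        rw [Finset.card_filter]; push_cast; rfl
      rw [h7]
      have h8 := hR I hI hc
      set N := ((Ω.filter (fun a => ∀ i ∈ I, E i a)).card : ℝ) with hNdef
      set W := ∏ i ∈ I, w i with hW
      have h9 := abs_le.mp h8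
      rcases neg_one_pow_eq_or ℝ I.card with h10 | h10
      · rw [h10]; linarith [h9.2]
      · rw [h10]; linarith [h9.1]
    · simp [if_neg hc]
  have hsum2 := Finset.sum_le_sum hN
  refine hsum2.trans ?_
  rw [Finset.sum_add_distrib, ← Finset.mul_sum]
  have htrunc := truncSum_le P w h0 h1 r
  have h11 : ∑ I ∈ P.powerset, (if I.card ≤ 2 * r then (-1 : ℝ) ^ I.card * ∏ i ∈ I, w i else 0) =
      truncSum P w (2 * r) := rfl
  rw [h11]
  have h12 := mul_le_mul_of_nonneg_left htrunc hX
  linarith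

/-- Sum over subsets of size at most `m` of products of nonnegative weights. -/
noncomputable def posSum (S : Finset ι) (v : ι → ℝ) (m : ℕ) : ℝ :=
  ∑ I ∈ S.powerset, if I.card ≤ m then ∏ i ∈ I, v i else 0

lemma posSum_empty (v : ι → ℝ) (m : ℕ) : posSum (∅ : Finset ι) v m = 1 := by
  simp [posSum]

lemma posSum_insert_zero {a : ι} {S : Finset ι} (ha : a ∉ S) (v : ι → ℝ) :
    posSum (insert a S) v 0 = posSum S v 0 := by
  unfold posSum
  rw [Finset.sum_powerset_insert ha]
  have : ∑ t ∈ S.powerset, (if (insert a t).card ≤ 0 then ∏ i ∈ insert a t, v i else 0) = 0 := by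
    refine Finset.sum_eq_zero fun t _ => ?_
    rw [if_neg]
    simp
  rw [this, add_zero]

lemma posSum_insert_succ {a : ι} {S : Finset ι} (ha : a ∉ S) (v : ι → ℝ) (m : ℕ) :
    posSum (insert a S) v (m + 1) = posSum S v (m + 1) + v a * posSum S v m := by
  unfold posSum
  rw [Finset.sum_powerset_insert ha, Finset.mul_sum]
  congr 1
  refine Finset.sum_congr rfl fun t ht => ?_
  have hat : a ∉ t := fun h => ha (Finset.mem_powerset.mp ht h)
  rw [Finset.card_insert_of_notMem hat, Finset.prod_insert hat]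
  by_cases h : t.card ≤ m
  · rw [if_pos h, if_pos (by omega)]
  · rw [if_neg h, if_neg (by omega)]
    simp

lemma posSum_nonneg (S : Finset ι) (v : ι → ℝ) (h0 : ∀ i ∈ S, 0 ≤ v i) (m : ℕ) :
    0 ≤ posSum S v m := by
  unfold posSum
  refine Finset.sum_nonneg fun I hI => ?_
  split_ifs
  · exact Finset.prod_nonneg fun i hi => h0 i (Finset.mem_powerset.mp hI hi)
  · exact le_rfl

lemma posSum_le (S : Finset ι) (v : ι → ℝ) (h0 : ∀ i ∈ S, 0 ≤ v i) (m : ℕ) :
    posSum S v m ≤ (1 + ∑ i ∈ S, v i) ^ m := by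
  induction S using Finset.induction_on generalizing m with
  | empty =>
    rw [posSum_empty]; simp
  | insert a S ha ih =>
    have h0' : ∀ i ∈ S, 0 ≤ v i := fun i hi => h0 i (Finset.mem_insert_of_mem hi)
    have ha0 := h0 a (Finset.mem_insert_self a S)
    rw [Finset.sum_insert ha]
    set V := ∑ i ∈ S, v i with hV
    have hV0 : 0 ≤ V := Finset.sum_nonneg h0'
    cases m with
    | zero =>
      rw [posSum_insert_zero ha]
      simpa using ih h0' 0
    | succ m =>
      rw [posSum_insert_succ ha]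
      have h1 := ih h0' (m + 1)
      have h2 := ih h0' m
      have h3 : (1 + V) ^ (m + 1) + v a * (1 + V) ^ m ≤ (1 + (v a + V)) ^ (m + 1) := by
        have h4 : (1 + V) ^ m ≤ (1 + (v a + V)) ^ m :=
          pow_le_pow_left₀ (by positivity) (by linarith) m
        have h5 : (1 + V) ^ (m + 1) = (1 + V) ^ m * (1 + V) := pow_succ _ _
        have h6 : (1 + (v a + V)) ^ (m + 1) = (1 + (v a + V)) ^ m * (1 + (v a + V)) := pow_succ _ _
        rw [h5, h6]
        have h7 : 0 ≤ (1 + V) ^ m := by positivity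
        nlinarith
      have h8 := mul_le_mul_of_nonneg_left h2 ha0
      linarith

end Vale.Agent.Lib.P015
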