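import Mathlib
import Vale.Agent.Lib.P015.Bonferroni

/-!
Sums of periodic functions, the Chinese remainder theorem for such sums, and the resulting
sieve on a square box.
-/

namespace Vale.Agent.Lib.P015

open Finset

lemma sum_range_periodic (h : ℕ → ℝ) (m : ℕ) (hp : Function.Periodic h m) (Q : ℕ) :
    ∑ x ∈ range (Q * m), h x = Q * ∑ x ∈ range m, h x := by
  induction Q with
  | zero => simp
  | succ Q ih =>
    rw [Nat.succ_mul, Finset.sum_range_add, ih]
    have : ∀ x, h (Q * m + x) = h x := by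
      intro x
      rw [add_comm]
      exact (hp.nat_mul Q) x
    simp only [this]
    push_cast
    ring

lemma crt1 {a b : ℕ} (hab : a.Coprime b) (ha : 0 < a) (hb : 0 < b) (φ ψ : ℕ → ℝ)
    (hφ : Function.Periodic φ a) (hψ : Function.Periodic ψ b) :
    ∑ x ∈ range (a * b), φ x * ψ x = (∑ x ∈ range a, φ x) * ∑ x ∈ range b, ψ x := by
  rw [Finset.sum_mul_sum, ← Finset.sum_product']
  refine Finset.sum_nbij (fun x => (x % a, x % b)) ?_ ?_ ?_ ?_
  · intro x _
    simp only [Finset.mem_product, Finset.mem_range]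
    exact ⟨Nat.mod_lt _ ha, Nat.mod_lt _ hb⟩
  · intro x hx y hy hxy
    simp only [Finset.coe_range, Set.mem_Iio] at hx hy
    simp only [Prod.mk.injEq] at hxy
    have h1 : x ≡ y [MOD a * b] :=
      (Nat.modEq_and_modEq_iff_modEq_mul hab).mp ⟨hxy.1, hxy.2⟩
    exact Nat.ModEq.eq_of_lt_of_lt h1 hx hy
  · rintro ⟨u, v⟩ huv
    simp only [Finset.coe_product, Finset.coe_range, Set.mem_prod, Set.mem_Iio] at huv
    refine ⟨(Nat.chineseRemainder hab u v : ℕ), ?_, ?_⟩
    · simp only [Finset.coe_range, Set.mem_Iio]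
      exact Nat.chineseRemainder_lt_mul hab u v ha.ne' hb.ne'
    · have h := (Nat.chineseRemainder hab u v).2
      simp only [Prod.mk.injEq]
      constructor
      · have := h.1
        rw [Nat.ModEq] at this
        rw [this, Nat.mod_eq_of_lt huv.1]
      · have := h.2
        rw [Nat.ModEq] at this
        rw [this, Nat.mod_eq_of_lt huv.2]
  · intro x _
    simp only
    rw [hφ.map_mod_nat, hψ.map_mod_nat]

lemma crt2 {a b : ℕ} (hab : a.Coprime b) (ha : 0 < a) (hb : 0 < b) (F G : ℕ → ℕ → ℝ)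
    (hF1 : ∀ y, Function.Periodic (fun x => F x y) a)
    (hF2 : ∀ x, Function.Periodic (fun y => F x y) a)
    (hG1 : ∀ y, Function.Periodic (fun x => G x y) b)
    (hG2 : ∀ x, Function.Periodic (fun y => G x y) b) :
    ∑ x ∈ range (a * b), ∑ y ∈ range (a * b), F x y * G x y =
      (∑ x ∈ range a, ∑ y ∈ range a, F x y) * ∑ x ∈ range b, ∑ y ∈ range b, G x y := by
  have h1 : ∀ x, ∑ y ∈ range (a * b), F x y * G x y =
      (∑ y ∈ range a, F x y) * ∑ y ∈ range b, G x y := fun x =>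
    crt1 hab ha hb (fun y => F x y) (fun y => G x y) (hF2 x) (hG2 x)
  simp only [h1]
  refine crt1 hab ha hb _ _ ?_ ?_
  · intro x
    exact Finset.sum_congr rfl fun y _ => hF1 y x
  · intro x
    exact Finset.sum_congr rfl fun y _ => hG1 y x

lemma crt_prod (I : Finset ℕ) (hI : ∀ p ∈ I, p.Prime) (F : ℕ → ℕ → ℕ → ℝ)
    (hF1 : ∀ p ∈ I, ∀ y, Function.Periodic (fun x => F p x y) p)
    (hF2 : ∀ p ∈ I, ∀ x, Function.Periodic (fun y => F p x y) p) :
    ∑ x ∈ range (∏ p ∈ I, p), ∑ y ∈ range (∏ p ∈ I, p), ∏ p ∈ I, F p x y =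
      ∏ p ∈ I, ∑ x ∈ range p, ∑ y ∈ range p, F p x y := by
  induction I using Finset.induction_on with
  | empty => simp
  | insert q I hq ih =>
    have hq' : q.Prime := hI q (Finset.mem_insert_self q I)
    have hI' : ∀ p ∈ I, p.Prime := fun p hp => hI p (Finset.mem_insert_of_mem hp)
    have hcop : q.Coprime (∏ p ∈ I, p) := by
      refine Nat.Coprime.prod_right fun p hp => ?_
      rw [Nat.coprime_primes hq' (hI' p hp)]
      rintro rfl
      exact hq hp
    have hm : 0 < ∏ p ∈ I, p := Finset.prod_pos fun p hp => (hI' p hp).pos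
    have hper : ∀ p ∈ I, ∃ c, (∏ p ∈ I, p) = c * p := by
      intro p hp
      obtain ⟨c, hc⟩ := Finset.dvd_prod_of_mem (fun p => p) hp
      exact ⟨c, by rw [mul_comm]; exact hc⟩
    rw [Finset.prod_insert hq, Finset.prod_insert hq]
    simp only [Finset.prod_insert hq]
    have h2 := crt2 hcop hq'.pos hm (F q) (fun x y => ∏ p ∈ I, F p x y)
      (hF1 q (Finset.mem_insert_self q I)) (hF2 q (Finset.mem_insert_self q I))
      (by
        intro y x
        refine Finset.prod_congr rfl fun p hp => ?_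
        obtain ⟨c, hc⟩ := hper p hp
        rw [hc]
        exact (hF1 p (Finset.mem_insert_of_mem hp) y).nat_mul c x)
      (by
        intro x y
        refine Finset.prod_congr rfl fun p hp => ?_
        obtain ⟨c, hc⟩ := hper p hp
        rw [hc]
        exact (hF2 p (Finset.mem_insert_of_mem hp) x).nat_mul c y)
    rw [h2, ih hI' (fun p hp => hF1 p (Finset.mem_insert_of_mem hp))
      (fun p hp => hF2 p (Finset.mem_insert_of_mem hp))]

/-- Sums over a square whose side is a multiple of the period. -/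
lemma sum_box_periodic (g : ℕ → ℕ → ℝ) (m : ℕ)
    (h1 : ∀ y, Function.Periodic (fun x => g x y) m)
    (h2 : ∀ x, Function.Periodic (fun y => g x y) m) (Q : ℕ) :
    ∑ x ∈ range (Q * m), ∑ y ∈ range (Q * m), g x y =
      (Q : ℝ) ^ 2 * ∑ x ∈ range m, ∑ y ∈ range m, g x y := by
  have e1 : ∀ x, ∑ y ∈ range (Q * m), g x y = Q * ∑ y ∈ range m, g x y := fun x =>
    sum_range_periodic (fun y => g x y) m (h2 x) Q
  simp only [e1]
  rw [← Finset.mul_sum, sum_range_periodic (fun x => ∑ y ∈ range m, g x y) m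
    (fun x => Finset.sum_congr rfl fun y _ => h1 y x) Q]
  ring

lemma sum_box_mono (g : ℕ → ℕ → ℝ) (h0 : ∀ x y, 0 ≤ g x y) {a b : ℕ} (hab : a ≤ b) :
    ∑ x ∈ range a, ∑ y ∈ range a, g x y ≤ ∑ x ∈ range b, ∑ y ∈ range b, g x y := by
  calc ∑ x ∈ range a, ∑ y ∈ range a, g x y
      ≤ ∑ x ∈ range a, ∑ y ∈ range b, g x y := by
        refine Finset.sum_le_sum fun x _ => ?_
        exact Finset.sum_le_sum_of_subset_of_nonneg (Finset.range_subset_range.mpr hab)
          fun y _ _ => h0 x y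
    _ ≤ _ := Finset.sum_le_sum_of_subset_of_nonneg (Finset.range_subset_range.mpr hab)
        fun x _ _ => Finset.sum_nonneg fun y _ => h0 x y

/-- Count in a box against the expected density. -/
lemma box_count (g : ℕ → ℕ → ℝ) (h0 : ∀ x y, 0 ≤ g x y) (m : ℕ) (hm : 0 < m)
    (h1 : ∀ y, Function.Periodic (fun x => g x y) m)
    (h2 : ∀ x, Function.Periodic (fun y => g x y) m) (n : ℕ) :
    |∑ x ∈ range n, ∑ y ∈ range n, g x y -
        ((n : ℝ) / m) ^ 2 * ∑ x ∈ range m, ∑ y ∈ range m, g x y| ≤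
      (2 * ((n : ℝ) / m) + 1) * ∑ x ∈ range m, ∑ y ∈ range m, g x y := by
  set c := ∑ x ∈ range m, ∑ y ∈ range m, g x y with hc
  have hc0 : 0 ≤ c := Finset.sum_nonneg fun x _ => Finset.sum_nonneg fun y _ => h0 x y
  set Q := n / m with hQ
  have hm' : (0 : ℝ) < m := by exact_mod_cast hm
  have hle1 : Q * m ≤ n := Nat.div_mul_le_self n m
  have hle2 : n ≤ (Q + 1) * m := by
    have := (Nat.lt_mul_div_succ n hm).le
    rw [Nat.mul_comm] at this
    exact this
  have hS1 := sum_box_mono g h0 hle1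
  have hS2 := sum_box_mono g h0 hle2
  rw [sum_box_periodic g m h1 h2] at hS1 hS2
  set t := (n : ℝ) / m with ht
  have hQt : (Q : ℝ) ≤ t := by
    rw [ht, le_div_iff₀ hm']
    exact_mod_cast hle1
  have htQ : t ≤ (Q : ℝ) + 1 := by
    rw [ht, div_le_iff₀ hm']
    exact_mod_cast hle2
  have hQ0 : (0 : ℝ) ≤ Q := by positivity
  have ht0 : (0 : ℝ) ≤ t := le_trans hQ0 hQt
  have hq2 : (Q : ℝ) ^ 2 * c ≤ t ^ 2 * c :=
    mul_le_mul_of_nonneg_right (pow_le_pow_left₀ hQ0 hQt 2) hc0
  have hq3 : t ^ 2 * c ≤ ((Q : ℝ) + 1) ^ 2 * c :=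
    mul_le_mul_of_nonneg_right (pow_le_pow_left₀ ht0 htQ 2) hc0
  push_cast at hS2
  rw [abs_le]
  constructor
  · nlinarith
  · nlinarith

/-- The sieve on a box for periodic events attached to distinct primes. -/
theorem box_sieve (n : ℕ) (P : Finset ℕ) (hP : ∀ p ∈ P, p.Prime) (E : ℕ → ℕ → ℕ → Prop)
    [∀ p x y, Decidable (E p x y)]
    (hE1 : ∀ p ∈ P, ∀ y x, (E p (x + p) y ↔ E p x y))
    (hE2 : ∀ p ∈ P, ∀ x y, (E p x (y + p) ↔ E p x y))
    (c : ℕ → ℝ)
    (hc : ∀ p ∈ P, ∑ x ∈ range p, ∑ y ∈ range p, (if E p x y then (1 : ℝ) else 0) = c p)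
    (κ : ℝ) (hκ0 : 0 ≤ κ) (hκ : ∀ p ∈ P, c p ≤ κ * p)
    (hc1 : ∀ p ∈ P, c p ≤ (p : ℝ) ^ 2) (r : ℕ) :
    (((range n ×ˢ range n).filter (fun z => ∀ p ∈ P, ¬ E p z.1 z.2)).card : ℝ) ≤
      (n : ℝ) ^ 2 * (∏ p ∈ P, (1 - c p / (p : ℝ) ^ 2) +
          (∑ p ∈ P, c p / (p : ℝ) ^ 2) ^ (2 * r + 1) / ((2 * r + 1).factorial : ℝ)) +
        2 * n * (1 + κ * P.card) ^ (2 * r) + (1 + κ * ∑ p ∈ P, (p : ℝ)) ^ (2 * r) := by
  classical
  set F : ℕ → ℕ → ℕ → ℝ := fun p x y => if E p x y then (1 : ℝ) else 0 with hF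
  have hF0 : ∀ p x y, 0 ≤ F p x y := by
    intro p x y; simp only [hF]; split_ifs <;> norm_num
  have hF1 : ∀ p ∈ P, ∀ y, Function.Periodic (fun x => F p x y) p := by
    intro p hp y x
    simp only [hF]
    simp only [hE1 p hp y x]
  have hF2 : ∀ p ∈ P, ∀ x, Function.Periodic (fun y => F p x y) p := by
    intro p hp x y
    simp only [hF]
    simp only [hE2 p hp x y]
  have hc0 : ∀ p ∈ P, 0 ≤ c p := by
    intro p hp
    rw [← hc p hp]
    exact Finset.sum_nonneg fun x _ => Finset.sum_nonneg fun y _ => hF0 p x y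
  have hppos : ∀ p ∈ P, (0 : ℝ) < (p : ℝ) := by
    intro p hp
    exact_mod_cast (hP p hp).pos
  have hcount : ∀ I : Finset ℕ, I ⊆ P →
      ((((range n ×ˢ range n).filter (fun z => ∀ i ∈ I, E i z.1 z.2)).card : ℝ)) =
        ∑ x ∈ range n, ∑ y ∈ range n, ∏ p ∈ I, F p x y := by
    intro I _
    rw [Finset.card_filter, Finset.sum_product]
    push_cast
    refine Finset.sum_congr rfl fun x _ => Finset.sum_congr rfl fun y _ => ?_
    by_cases h : ∀ i ∈ I, E i x y
    · rw [if_pos h]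
      symm
      apply Finset.prod_eq_one
      intro p hp
      simp only [hF, if_pos (h p hp)]
    · rw [if_neg h]
      push Not at h
      obtain ⟨i, hi, hi2⟩ := h
      symm
      apply Finset.prod_eq_zero hi
      simp only [hF, if_neg hi2]
  set R : Finset ℕ → ℝ := fun I =>
    2 * n * ∏ _i ∈ I, κ + ∏ i ∈ I, (κ * (i : ℝ)) with hR
  have hmain := brun_abstract (range n ×ˢ range n) P (fun p z => E p z.1 z.2) ((n : ℝ) ^ 2)
    (by positivity) (fun p => c p / (p : ℝ) ^ 2)
    (fun p hp => div_nonneg (hc0 p hp) (by positivity))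
    (fun p hp => by
      rw [div_le_one (by have := hppos p hp; positivity)]
      exact hc1 p hp)
    R r (by
      intro I hI _
      have hIP : I ⊆ P := Finset.mem_powerset.mp hI
      rw [hcount I hIP]
      have hm : 0 < ∏ p ∈ I, p := Finset.prod_pos fun p hp => (hP p (hIP hp)).pos
      have hm' : (0 : ℝ) < ((∏ p ∈ I, p : ℕ) : ℝ) := by exact_mod_cast hm
      set g : ℕ → ℕ → ℝ := fun x y => ∏ p ∈ I, F p x y with hg
      have hg0 : ∀ x y, 0 ≤ g x y := fun x y => Finset.prod_nonneg fun p _ => hF0 p x y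
      have hper : ∀ p ∈ I, ∃ c, (∏ p ∈ I, p) = c * p := by
        intro p hp
        obtain ⟨c, hc⟩ := Finset.dvd_prod_of_mem (fun p => p) hp
        exact ⟨c, by rw [mul_comm]; exact hc⟩
      have hg1 : ∀ y, Function.Periodic (fun x => g x y) (∏ p ∈ I, p) := by
        intro y x
        refine Finset.prod_congr rfl fun p hp => ?_
        obtain ⟨c, hc⟩ := hper p hp
        rw [hc]
        exact (hF1 p (hIP hp) y).nat_mul c x
      have hg2 : ∀ x, Function.Periodic (fun y => g x y) (∏ p ∈ I, p) := by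
        intro x y
        refine Finset.prod_congr rfl fun p hp => ?_
        obtain ⟨c, hc⟩ := hper p hp
        rw [hc]
        exact (hF2 p (hIP hp) x).nat_mul c y
      have hbox := box_count g hg0 _ hm hg1 hg2 n
      have hprod := crt_prod I (fun p hp => hP p (hIP hp)) F
        (fun p hp => hF1 p (hIP hp)) (fun p hp => hF2 p (hIP hp))
      have hcI : ∑ x ∈ range (∏ p ∈ I, p), ∑ y ∈ range (∏ p ∈ I, p), g x y = ∏ p ∈ I, c p := by
        rw [hprod]
        exact Finset.prod_congr rfl fun p hp => hc p (hIP hp)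
      rw [hcI] at hbox
      set m : ℝ := ((∏ p ∈ I, p : ℕ) : ℝ) with hmdef
      have hmprod : m = ∏ p ∈ I, (p : ℝ) := by simp [hmdef]
      have hW : (n : ℝ) ^ 2 * ∏ p ∈ I, (c p / (p : ℝ) ^ 2) =
          ((n : ℝ) / m) ^ 2 * ∏ p ∈ I, c p := by
        rw [Finset.prod_div_distrib, Finset.prod_pow, ← hmprod, div_pow]
        ring
      rw [hW]
      refine hbox.trans ?_
      have hcle : ∏ p ∈ I, c p ≤ (∏ _i ∈ I, κ) * m := by
        rw [hmprod, ← Finset.prod_mul_distrib]
        exact Finset.prod_le_prod (fun p hp => hc0 p (hIP hp)) fun p hp => hκ p (hIP hp)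
      have hcnn : 0 ≤ ∏ p ∈ I, c p := Finset.prod_nonneg fun p hp => hc0 p (hIP hp)
      have hkI : 0 ≤ ∏ _i ∈ I, κ := Finset.prod_nonneg fun _ _ => hκ0
      have hRval : R I = (2 * n / m + 1) * ((∏ _i ∈ I, κ) * m) := by
        simp only [hR]
        rw [Finset.prod_mul_distrib, ← hmprod]
        field_simp
      rw [hRval]
      have hcoef : (2 * ((n : ℝ) / m) + 1) = (2 * n / m + 1) := by ring
      rw [hcoef]
      exact mul_le_mul_of_nonneg_left hcle (by positivity))
  refine hmain.trans ?_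
  have hsumR : (∑ I ∈ P.powerset, if I.card ≤ 2 * r then R I else 0) =
      2 * n * posSum P (fun _ => κ) (2 * r) + posSum P (fun i => κ * (i : ℝ)) (2 * r) := by
    unfold posSum
    rw [Finset.mul_sum, ← Finset.sum_add_distrib]
    refine Finset.sum_congr rfl fun I _ => ?_
    by_cases h : I.card ≤ 2 * r
    · simp only [if_pos h, hR]
    · simp only [if_neg h]; simp
  rw [hsumR]
  have hp1 := posSum_le P (fun _ => κ) (fun _ _ => hκ0) (2 * r)
  have hp2 := posSum_le P (fun i : ℕ => κ * (i : ℝ)) (fun i _ => by positivity) (2 * r)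
  rw [Finset.sum_const, nsmul_eq_mul, mul_comm ((P.card : ℝ)) κ] at hp1
  rw [← Finset.mul_sum] at hp2
  have hn0 : (0 : ℝ) ≤ 2 * n := by positivity
  have h3 := mul_le_mul_of_nonneg_left hp1 hn0
  linarith

end Vale.Agent.Lib.P015
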