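import Mathlib

/-!
A crude Chebyshev type bound for the sum of reciprocals of primes.
-/

namespace Vale.Agent.Lib.P015

open Finset

/-- Sum of 1/p over primes p ≤ T. -/
noncomputable def primeRecSum (T : ℕ) : ℝ := ∑ p ∈ (T + 1).primesBelow, (1 : ℝ) / p

lemma dyadic_card (J : ℕ) :
    J * (((2 ^ (J + 1) + 1).primesBelow).filter (fun p => 2 ^ J < p)).card ≤ 2 ^ (J + 2) := by
  set Q := ((2 ^ (J + 1) + 1).primesBelow).filter (fun p => 2 ^ J < p) with hQ
  have h1 : (2 ^ J) ^ Q.card ≤ ∏ p ∈ Q, p := by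
    apply Finset.pow_card_le_prod
    intro p hp
    exact (Finset.mem_filter.mp hp).2.le
  have h2 : ∏ p ∈ Q, p ≤ primorial (2 ^ (J + 1)) := by
    unfold primorial
    refine Finset.prod_le_prod_of_subset_of_one_le' ?_ ?_
    · intro p hp
      have hp2 := (Finset.mem_filter.mp hp).1
      exact Finset.mem_filter.mpr ⟨Finset.mem_range.mpr (Nat.lt_of_mem_primesBelow hp2),
        Nat.prime_of_mem_primesBelow hp2⟩
    · intro p hp _
      exact (Finset.mem_filter.mp hp).2.one_lt.le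
  have h3 := primorial_le_four_pow (2 ^ (J + 1))
  have h4 : (2 ^ J) ^ Q.card ≤ 4 ^ (2 ^ (J + 1)) := h1.trans (h2.trans h3)
  have h5 : 2 ^ (J * Q.card) ≤ 2 ^ (2 ^ (J + 2)) := by
    calc 2 ^ (J * Q.card) = (2 ^ J) ^ Q.card := by rw [pow_mul]
      _ ≤ 4 ^ (2 ^ (J + 1)) := h4
      _ = 2 ^ (2 ^ (J + 2)) := by
        rw [show (4 : ℕ) = 2 ^ 2 by norm_num, ← pow_mul, show J + 2 = (J + 1) + 1 by ring,
          pow_succ (2 : ℕ) (J + 1)]
        congr 1
        ring
  exact (Nat.pow_le_pow_iff_right (by norm_num)).mp h5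

lemma primeRecSum_dyadic (J : ℕ) (hJ : 1 ≤ J) :
    primeRecSum (2 ^ (J + 1)) ≤ primeRecSum (2 ^ J) + 4 / J := by
  classical
  set Q := ((2 ^ (J + 1) + 1).primesBelow).filter (fun p => 2 ^ J < p) with hQ
  have hsplit : (2 ^ (J + 1) + 1).primesBelow =
      (2 ^ J + 1).primesBelow ∪ Q := by
    ext p
    simp only [hQ, Finset.mem_union, Finset.mem_filter, Nat.mem_primesBelow]
    constructor
    · rintro ⟨h1, h2⟩
      by_cases h : 2 ^ J < p
      · exact Or.inr ⟨⟨h1, h2⟩, h⟩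
      · exact Or.inl ⟨by omega, h2⟩
    · rintro (⟨h1, h2⟩ | ⟨⟨h1, h2⟩, _⟩)
      · have : 2 ^ J ≤ 2 ^ (J + 1) := Nat.pow_le_pow_right (by norm_num) (by omega)
        exact ⟨by omega, h2⟩
      · exact ⟨h1, h2⟩
  have hdisj : Disjoint (2 ^ J + 1).primesBelow Q := by
    rw [Finset.disjoint_left]
    intro p hp hq
    have h1 := Nat.lt_of_mem_primesBelow hp
    have h2 := (Finset.mem_filter.mp hq).2
    omega
  unfold primeRecSum
  rw [hsplit, Finset.sum_union hdisj]
  have hJ0 : (0 : ℝ) < J := by exact_mod_cast hJ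
  have hbound : ∑ p ∈ Q, (1 : ℝ) / p ≤ 4 / J := by
    have h1 : ∀ p ∈ Q, (1 : ℝ) / p ≤ 1 / 2 ^ J := by
      intro p hp
      have h2 := (Finset.mem_filter.mp hp).2
      have h3 : ((2 : ℝ) ^ J) ≤ p := by exact_mod_cast h2.le
      exact one_div_le_one_div_of_le (by positivity) h3
    have h2 := Finset.sum_le_card_nsmul Q _ _ h1
    refine h2.trans ?_
    have h3 := dyadic_card J
    rw [← hQ] at h3
    have h4 : (J : ℝ) * Q.card ≤ 2 ^ (J + 2) := by exact_mod_cast h3
    rw [nsmul_eq_mul, mul_one_div, div_le_div_iff₀ (by positivity) hJ0]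
    calc (Q.card : ℝ) * J = J * Q.card := by ring
      _ ≤ 2 ^ (J + 2) := h4
      _ = 4 * 2 ^ J := by rw [pow_add]; ring
  linarith

/-- Harmonic sum over `1..n` as a real number. -/
noncomputable def harm (n : ℕ) : ℝ := ∑ i ∈ Ioc 0 n, (1 : ℝ) / i

lemma harm_succ (n : ℕ) : harm (n + 1) = harm n + 1 / ((n + 1 : ℕ) : ℝ) := by
  unfold harm
  rw [Finset.sum_Ioc_succ_top (by omega)]

lemma harm_le (n : ℕ) (hn : 1 ≤ n) : harm n ≤ 1 + Real.log n := by
  have h := harmonic_le_one_add_log n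
  have h2 : ((harmonic n : ℚ) : ℝ) = harm n := by
    unfold harm harmonic
    push_cast
    rw [Finset.range_eq_Ico]
    calc ∑ x ∈ Ico 0 n, ((x : ℝ) + 1)⁻¹ = ∑ x ∈ Ico 0 n, (1 : ℝ) / ((x + 1 : ℕ) : ℝ) := by
          refine Finset.sum_congr rfl fun x _ => ?_
          simp
      _ = ∑ e ∈ Ico (0 + 1) (n + 1), (1 : ℝ) / (e : ℝ) :=
          Finset.sum_Ico_add' (fun e : ℕ => (1 : ℝ) / (e : ℝ)) 0 n 1
      _ = ∑ e ∈ Ioc 0 n, (1 : ℝ) / (e : ℝ) := by
          refine Finset.sum_congr ?_ fun e _ => rfl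
          ext x
          simp only [Finset.mem_Ioc, Finset.mem_Ico]
          omega
  rw [← h2]
  exact h

lemma primeRecSum_two_pow (J : ℕ) (hJ : 1 ≤ J) :
    primeRecSum (2 ^ J) ≤ 1 / 2 + 4 * harm (J - 1) := by
  induction J, hJ using Nat.le_induction with
  | base =>
    have : primeRecSum (2 ^ 1) = 1 / 2 := by
      unfold primeRecSum
      have : (2 ^ 1 + 1).primesBelow = {2} := by decide
      rw [this]; simp
    rw [this]
    simp [harm]
  | succ J hJ ih =>
    have h1 := primeRecSum_dyadic J hJ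
    have h2 : harm (J + 1 - 1) = harm (J - 1) + 1 / (J : ℝ) := by
      obtain ⟨j, rfl⟩ : ∃ j, J = j + 1 := ⟨J - 1, by omega⟩
      simp only [Nat.add_sub_cancel]
      rw [harm_succ]
    rw [h2]
    have h3 : (4 : ℝ) / J = 4 * (1 / J) := by ring
    linarith

lemma primeRecSum_mono {a b : ℕ} (h : a ≤ b) : primeRecSum a ≤ primeRecSum b := by
  unfold primeRecSum
  refine Finset.sum_le_sum_of_subset_of_nonneg ?_ fun i _ _ => by positivity
  intro p hp
  simp only [Nat.mem_primesBelow] at hp ⊢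
  exact ⟨by omega, hp.2⟩

/-- The main bound. -/
theorem primeRecSum_le (T : ℕ) (hT : 2 ≤ T) :
    primeRecSum T ≤ 5 + 4 * Real.log (2 * Real.log T) := by
  set J := Nat.log 2 T + 1 with hJ
  have hJ1 : 1 ≤ Nat.log 2 T := Nat.log_pos (by norm_num) hT
  have h1 : T ≤ 2 ^ J := (Nat.lt_pow_succ_log_self (by norm_num) T).le
  have h2 := primeRecSum_mono h1
  have h3 := primeRecSum_two_pow J (by omega)
  have hJ' : J - 1 = Nat.log 2 T := by omega
  rw [hJ'] at h3
  have h4 := harm_le (Nat.log 2 T) hJ1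
  have hT0 : (0 : ℝ) < T := by positivity
  have hlogT : 0 < Real.log T := Real.log_pos (by exact_mod_cast (by omega : 1 < T))
  have h5 : ((Nat.log 2 T : ℕ) : ℝ) ≤ 2 * Real.log T := by
    have h6 : (2 : ℝ) ^ (Nat.log 2 T) ≤ T := by
      exact_mod_cast Nat.pow_log_le_self 2 (by omega)
    have h7 : ((Nat.log 2 T : ℕ) : ℝ) * Real.log 2 ≤ Real.log T := by
      rw [← Real.log_pow]
      exact Real.log_le_log (by positivity) h6
    have h8 : (1 : ℝ) / 2 ≤ Real.log 2 := by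
      have := Real.log_two_gt_d9
      linarith
    have h9 : (0 : ℝ) ≤ (Nat.log 2 T : ℕ) := by positivity
    nlinarith
  have h6 : Real.log (Nat.log 2 T : ℕ) ≤ Real.log (2 * Real.log T) :=
    Real.log_le_log (by exact_mod_cast hJ1) h5
  linarith

end Vale.Agent.Lib.P015
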