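import Mathlib
import Vale.Agent.Lib.P015.Periodic
import Vale.Agent.Lib.P015.PrimeSum

/-!
The local densities: for a split prime `p = a^2 + b^2` the multiples of the two Gaussian prime
factors of `p` form two families of lines in `(ZMod p)^2`.
-/

namespace Vale.Agent.Lib.P015

open Finset

lemma sum_range_zmod {p : ℕ} [NeZero p] (f : ZMod p → ℝ) :
    ∑ x ∈ range p, f (x : ZMod p) = ∑ u : ZMod p, f u := by
  refine Finset.sum_nbij (fun x => (x : ZMod p)) (fun _ _ => Finset.mem_univ _) ?_ ?_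
    (fun _ _ => rfl)
  · intro x hx y hy h
    simp only [Finset.coe_range, Set.mem_Iio] at hx hy
    have := (ZMod.natCast_eq_natCast_iff' x y p).mp h
    rwa [Nat.mod_eq_of_lt hx, Nat.mod_eq_of_lt hy] at this
  · intro u _
    exact ⟨u.val, by simpa using ZMod.val_lt u, by simp⟩

lemma sum_not_mem {p : ℕ} [Fact p.Prime] (C : Finset (ZMod p)) :
    ∑ u : ZMod p, (if u ∈ C then (0 : ℝ) else 1) = (p : ℝ) - C.card := by
  have h1 : ∑ u : ZMod p, (if u ∈ C then (0 : ℝ) else 1) =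
      ∑ u : ZMod p, (1 - if u ∈ C then (1 : ℝ) else 0) := by
    refine Finset.sum_congr rfl fun u _ => ?_
    split_ifs <;> simp
  rw [h1, Finset.sum_sub_distrib]
  simp [ZMod.card]

/-- Count of points on the union of two families of parallel lines. -/
lemma count_lines {p : ℕ} [Fact p.Prime] (hp2 : p ≠ 2) (a b : ZMod p) (ha : a ≠ 0) (hb : b ≠ 0)
    (C₁ C₂ : Finset (ZMod p)) (k : ℕ) (h1 : C₁.card = k) (h2 : C₂.card = k) :
    ∑ x ∈ range p, ∑ y ∈ range p,
      (if (a * (x : ZMod p) + b * (y : ZMod p) ∈ C₁ ∨ a * (x : ZMod p) - b * (y : ZMod p) ∈ C₂)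
        then (1 : ℝ) else 0) = (p : ℝ) ^ 2 - ((p : ℝ) - k) ^ 2 := by
  classical
  have : NeZero p := ⟨(Fact.out : p.Prime).ne_zero⟩
  have h20 : (2 : ZMod p) ≠ 0 := by
    intro h
    have h3 : ((2 : ℕ) : ZMod p) = 0 := by exact_mod_cast h
    rw [ZMod.natCast_eq_zero_iff] at h3
    have := (Nat.prime_dvd_prime_iff_eq Fact.out Nat.prime_two).mp h3
    exact hp2 this
  set H : ZMod p → ZMod p → ℝ := fun u v =>
    if (a * u + b * v ∈ C₁ ∨ a * u - b * v ∈ C₂) then (1 : ℝ) else 0 with hH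
  have e1 : ∑ x ∈ range p, ∑ y ∈ range p,
      (if (a * (x : ZMod p) + b * (y : ZMod p) ∈ C₁ ∨ a * (x : ZMod p) - b * (y : ZMod p) ∈ C₂)
        then (1 : ℝ) else 0) = ∑ u : ZMod p, ∑ v : ZMod p, H u v := by
    have : ∀ x : ℕ, ∑ y ∈ range p,
        (if (a * (x : ZMod p) + b * (y : ZMod p) ∈ C₁ ∨ a * (x : ZMod p) - b * (y : ZMod p) ∈ C₂)
          then (1 : ℝ) else 0) = ∑ v : ZMod p, H (x : ZMod p) v := fun x =>
      sum_range_zmod (fun v => H (x : ZMod p) v)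
    simp only [this]
    exact sum_range_zmod (fun u => ∑ v : ZMod p, H u v)
  rw [e1]
  set φ : ZMod p × ZMod p → ZMod p × ZMod p := fun w => (a * w.1 + b * w.2, a * w.1 - b * w.2)
    with hφ
  have hinj : Function.Injective φ := by
    rintro ⟨u, v⟩ ⟨u', v'⟩ h
    simp only [hφ, Prod.mk.injEq] at h
    have h3 : 2 * a * (u - u') = 0 := by linear_combination h.1 + h.2
    have h4 : 2 * b * (v - v') = 0 := by linear_combination h.1 - h.2
    have h5 : u - u' = 0 := by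
      rcases mul_eq_zero.mp h3 with h6 | h6
      · rcases mul_eq_zero.mp h6 with h7 | h7
        · exact absurd h7 h20
        · exact absurd h7 ha
      · exact h6
    have h6 : v - v' = 0 := by
      rcases mul_eq_zero.mp h4 with h7 | h7
      · rcases mul_eq_zero.mp h7 with h8 | h8
        · exact absurd h8 h20
        · exact absurd h8 hb
      · exact h7
    simp only [Prod.mk.injEq]
    exact ⟨sub_eq_zero.mp h5, sub_eq_zero.mp h6⟩
  have hbij : Function.Bijective φ := ⟨hinj, Finite.surjective_of_injective hinj⟩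
  have e2 : ∑ u : ZMod p, ∑ v : ZMod p, H u v =
      ∑ w : ZMod p × ZMod p, (if (w.1 ∈ C₁ ∨ w.2 ∈ C₂) then (1 : ℝ) else 0) := by
    rw [← Fintype.sum_prod_type' (fun u v => H u v)]
    exact hbij.sum_comp (fun w : ZMod p × ZMod p => if (w.1 ∈ C₁ ∨ w.2 ∈ C₂) then (1 : ℝ) else 0)
  rw [e2, Fintype.sum_prod_type]
  have e3 : ∀ U V : ZMod p, (if (U ∈ C₁ ∨ V ∈ C₂) then (1 : ℝ) else 0) =
      1 - (if U ∈ C₁ then (0 : ℝ) else 1) * (if V ∈ C₂ then (0 : ℝ) else 1) := by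
    intro U V
    by_cases hU : U ∈ C₁ <;> by_cases hV : V ∈ C₂ <;> simp [hU, hV]
  simp only [e3, Finset.sum_sub_distrib, Finset.sum_const, Finset.card_univ, ZMod.card,
    ← Finset.mul_sum, ← Finset.sum_mul, sum_not_mem, h1, h2]
  simp only [nsmul_eq_mul, mul_one]
  ring

open Classical in
/-- A chosen representation of `p` as a sum of two squares: first coordinate. -/
noncomputable def sqA (p : ℕ) : ℕ :=
  if h : ∃ a b : ℕ, a ^ 2 + b ^ 2 = p then h.choose else 0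

open Classical in
/-- A chosen representation of `p` as a sum of two squares: second coordinate. -/
noncomputable def sqB (p : ℕ) : ℕ :=
  if h : ∃ a b : ℕ, a ^ 2 + b ^ 2 = p then h.choose_spec.choose else 0

lemma sq_spec {p : ℕ} (hp : p.Prime) (h4 : p % 4 = 1) : (sqA p) ^ 2 + (sqB p) ^ 2 = p := by
  have := Fact.mk hp
  have h : ∃ a b : ℕ, a ^ 2 + b ^ 2 = p := Nat.Prime.sq_add_sq (p := p) (by omega)
  unfold sqA sqB
  rw [dif_pos h, dif_pos h]
  exact h.choose_spec.choose_spec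

lemma cast_ne_of_sq {p a b : ℕ} (hp : p.Prime) (h : a ^ 2 + b ^ 2 = p) : (a : ZMod p) ≠ 0 := by
  intro h0
  rw [ZMod.natCast_eq_zero_iff] at h0
  have ha : a ≠ 0 := by
    rintro rfl
    simp only [ne_eq, OfNat.ofNat_ne_zero, not_false_eq_true, zero_pow, zero_add] at h
    rw [← h] at hp
    exact Nat.Prime.not_prime_pow (le_refl 2) hp
  have h1 : p ≤ a := Nat.le_of_dvd (Nat.pos_of_ne_zero ha) h0
  have h2 : a ^ 2 ≤ p := by omega
  have h3 := hp.one_lt
  nlinarith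

lemma sqA_ne {p : ℕ} (hp : p.Prime) (h4 : p % 4 = 1) : (sqA p : ZMod p) ≠ 0 :=
  cast_ne_of_sq hp (sq_spec hp h4)

lemma sqB_ne {p : ℕ} (hp : p.Prime) (h4 : p % 4 = 1) : (sqB p : ZMod p) ≠ 0 :=
  cast_ne_of_sq hp (by rw [add_comm]; exact sq_spec hp h4)

lemma sq_sum_zero {p : ℕ} (hp : p.Prime) (h4 : p % 4 = 1) :
    (sqA p : ZMod p) ^ 2 + (sqB p : ZMod p) ^ 2 = 0 := by
  have h := sq_spec hp h4
  have h2 : (((sqA p) ^ 2 + (sqB p) ^ 2 : ℕ) : ZMod p) = 0 := by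
    rw [h]; simp
  exact_mod_cast h2

/-- Points of a shape stay distinct modulo `p` under the linear forms. -/
lemma line_inj {p : ℕ} [Fact p.Prime] (a b : ZMod p) (ha : a ≠ 0) (hab : a ^ 2 + b ^ 2 = 0)
    (K : ℕ) (hK : K < p) (σ : Finset (ℤ × ℤ))
    (hσ : ∀ s ∈ σ, ∀ s' ∈ σ, s ≠ s' → (s.1 - s'.1) ^ 2 + (s.2 - s'.2) ^ 2 ≤ (K : ℤ)) (L : ℤ) :
    Set.InjOn (fun s : ℤ × ℤ => -(a * ((s.1 - L : ℤ) : ZMod p) + b * ((s.2 - L : ℤ) : ZMod p)))
      (σ : Set (ℤ × ℤ)) := by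
  intro s hs s' hs' h
  by_contra hne
  simp only at h
  have hs1 : s ∈ σ := hs
  have hs2 : s' ∈ σ := hs'
  set d₁ := s.1 - s'.1 with hd₁
  set d₂ := s.2 - s'.2 with hd₂
  have h1 : a * (d₁ : ZMod p) + b * (d₂ : ZMod p) = 0 := by
    simp only [hd₁, hd₂]
    push_cast at h ⊢
    linear_combination -h
  have h2 : a ^ 2 * ((d₁ : ZMod p) ^ 2 + (d₂ : ZMod p) ^ 2) = 0 := by
    have h3 : a * (d₁ : ZMod p) = - (b * (d₂ : ZMod p)) := by linear_combination h1
    have h4 : a ^ 2 * (d₁ : ZMod p) ^ 2 = b ^ 2 * (d₂ : ZMod p) ^ 2 := by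
      calc a ^ 2 * (d₁ : ZMod p) ^ 2 = (a * (d₁ : ZMod p)) ^ 2 := by ring
        _ = (-(b * (d₂ : ZMod p))) ^ 2 := by rw [h3]
        _ = _ := by ring
    linear_combination h4 + (d₂ : ZMod p) ^ 2 * hab
  have h3 : ((d₁ : ZMod p) ^ 2 + (d₂ : ZMod p) ^ 2) = 0 := by
    rcases mul_eq_zero.mp h2 with h4 | h4
    · exact absurd (pow_eq_zero_iff (by norm_num) |>.mp h4) ha
    · exact h4
  have h4 : (((d₁ ^ 2 + d₂ ^ 2 : ℤ)) : ZMod p) = 0 := by
    push_cast; exact h3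
  rw [ZMod.intCast_zmod_eq_zero_iff_dvd] at h4
  have hpos : 0 < d₁ ^ 2 + d₂ ^ 2 := by
    by_contra hn
    have h5 : d₁ ^ 2 + d₂ ^ 2 = 0 := by nlinarith [sq_nonneg d₁, sq_nonneg d₂]
    have h6 : d₁ = 0 := by nlinarith [sq_nonneg d₁, sq_nonneg d₂]
    have h7 : d₂ = 0 := by nlinarith [sq_nonneg d₁, sq_nonneg d₂]
    apply hne
    ext
    · simp only [hd₁] at h6; omega
    · simp only [hd₂] at h7; omega
  have h5 := Int.le_of_dvd hpos h4
  have h6 := hσ s hs1 s' hs2 hne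
  have h7 : ((K : ℤ)) < p := by exact_mod_cast hK
  linarith

/-- The residues of the first family of lines attached to a shape. -/
noncomputable def cPlus (σ : Finset (ℤ × ℤ)) (L : ℤ) (p : ℕ) : Finset (ZMod p) :=
  σ.image fun s =>
    -((sqA p : ZMod p) * ((s.1 - L : ℤ) : ZMod p) + (sqB p : ZMod p) * ((s.2 - L : ℤ) : ZMod p))

/-- The residues of the second family of lines attached to a shape. -/
noncomputable def cMinus (σ : Finset (ℤ × ℤ)) (L : ℤ) (p : ℕ) : Finset (ZMod p) :=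
  σ.image fun s =>
    -((sqA p : ZMod p) * ((s.1 - L : ℤ) : ZMod p) - (sqB p : ZMod p) * ((s.2 - L : ℤ) : ZMod p))

/-- The event that a box point `(x,y)` lies on one of the lines at `p`. -/
def lineEvent (σ : Finset (ℤ × ℤ)) (L : ℤ) (p x y : ℕ) : Prop :=
  (sqA p : ZMod p) * (x : ZMod p) + (sqB p : ZMod p) * (y : ZMod p) ∈ cPlus σ L p ∨
    (sqA p : ZMod p) * (x : ZMod p) - (sqB p : ZMod p) * (y : ZMod p) ∈ cMinus σ L p

noncomputable instance (σ : Finset (ℤ × ℤ)) (L : ℤ) (p x y : ℕ) :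
    Decidable (lineEvent σ L p x y) := by
  unfold lineEvent; infer_instance

lemma card_cPlus {p : ℕ} (hp : p.Prime) (h4 : p % 4 = 1)
    (K : ℕ) (hK : K < p) (σ : Finset (ℤ × ℤ))
    (hσ : ∀ s ∈ σ, ∀ s' ∈ σ, s ≠ s' → (s.1 - s'.1) ^ 2 + (s.2 - s'.2) ^ 2 ≤ (K : ℤ)) (L : ℤ) :
    (cPlus σ L p).card = σ.card := by
  have := Fact.mk hp
  exact Finset.card_image_of_injOn
    (line_inj _ _ (sqA_ne hp h4) (sq_sum_zero hp h4) K hK σ hσ L)

lemma card_cMinus {p : ℕ} (hp : p.Prime) (h4 : p % 4 = 1)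
    (K : ℕ) (hK : K < p) (σ : Finset (ℤ × ℤ))
    (hσ : ∀ s ∈ σ, ∀ s' ∈ σ, s ≠ s' → (s.1 - s'.1) ^ 2 + (s.2 - s'.2) ^ 2 ≤ (K : ℤ)) (L : ℤ) :
    (cMinus σ L p).card = σ.card := by
  have := Fact.mk hp
  have h := line_inj (sqA p : ZMod p) (-(sqB p : ZMod p)) (sqA_ne hp h4)
    (by rw [neg_sq]; exact sq_sum_zero hp h4) K hK σ hσ L
  refine Finset.card_image_of_injOn ?_
  intro s hs s' hs' hss
  apply h hs hs'
  simp only at hss ⊢
  linear_combination hss

/-- Split primes in the range `(K, T]`. -/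
def splitPrimes (K T : ℕ) : Finset ℕ :=
  ((T + 1).primesBelow).filter fun p => p % 4 = 1 ∧ K < p

lemma mem_splitPrimes {K T p : ℕ} :
    p ∈ splitPrimes K T ↔ p < T + 1 ∧ p.Prime ∧ p % 4 = 1 ∧ K < p := by
  simp only [splitPrimes, Finset.mem_filter, Nat.mem_primesBelow, and_assoc]

lemma card_splitPrimes_le (K T : ℕ) : (splitPrimes K T).card ≤ T := by
  have h1 : splitPrimes K T ⊆ Finset.Ioc 0 T := by
    intro p hp
    obtain ⟨h2, h3, _, _⟩ := mem_splitPrimes.mp hp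
    exact Finset.mem_Ioc.mpr ⟨h3.pos, by omega⟩
  simpa using Finset.card_le_card h1

lemma sum_splitPrimes_le (K T : ℕ) : ∑ p ∈ splitPrimes K T, (p : ℝ) ≤ (T : ℝ) ^ 2 := by
  have h1 : ∀ p ∈ splitPrimes K T, (p : ℝ) ≤ T := by
    intro p hp
    obtain ⟨h2, _, _, _⟩ := mem_splitPrimes.mp hp
    exact_mod_cast (by omega : p ≤ T)
  have h2 := Finset.sum_le_card_nsmul _ _ _ h1
  refine h2.trans ?_
  rw [nsmul_eq_mul, sq]
  have h3 : ((splitPrimes K T).card : ℝ) ≤ T := by exact_mod_cast card_splitPrimes_le K T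
  exact mul_le_mul_of_nonneg_right h3 (by positivity)

/-- The sieve bound for the events attached to a shape. -/
theorem shape_sieve (σ : Finset (ℤ × ℤ)) (k K : ℕ) (hk : σ.card = k) (hkK : k ≤ K)
    (hσ : ∀ s ∈ σ, ∀ s' ∈ σ, s ≠ s' → (s.1 - s'.1) ^ 2 + (s.2 - s'.2) ^ 2 ≤ (K : ℤ))
    (L : ℤ) (n T r : ℕ) :
    (((range n ×ˢ range n).filter
        (fun z => ∀ p ∈ splitPrimes K T, ¬ lineEvent σ L p z.1 z.2)).card : ℝ) ≤
      (n : ℝ) ^ 2 * (∏ p ∈ splitPrimes K T, (1 - (k : ℝ) / p) ^ 2 +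
          (2 * k * primeRecSum T) ^ (2 * r + 1) / ((2 * r + 1).factorial : ℝ)) +
        2 * n * (1 + 2 * k * T) ^ (2 * r) + (1 + 2 * k * (T : ℝ) ^ 2) ^ (2 * r) := by
  classical
  set P := splitPrimes K T with hP
  have hprime : ∀ p ∈ P, p.Prime := fun p hp => (mem_splitPrimes.mp hp).2.1
  have hmod : ∀ p ∈ P, p % 4 = 1 := fun p hp => (mem_splitPrimes.mp hp).2.2.1
  have hKp : ∀ p ∈ P, K < p := fun p hp => (mem_splitPrimes.mp hp).2.2.2
  set c : ℕ → ℝ := fun p => (p : ℝ) ^ 2 - ((p : ℝ) - k) ^ 2 with hc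
  have hκ0 : (0 : ℝ) ≤ 2 * k := by positivity
  have hmain := box_sieve n P hprime (fun p x y => lineEvent σ L p x y)
    (by
      intro p _ y x
      simp only [lineEvent]
      rw [Nat.cast_add, ZMod.natCast_self, add_zero])
    (by
      intro p _ x y
      simp only [lineEvent]
      rw [Nat.cast_add, ZMod.natCast_self, add_zero])
    c
    (by
      intro p hp
      have := Fact.mk (hprime p hp)
      have hne2 : p ≠ 2 := by
        intro h
        have := hmod p hp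
        rw [h] at this
        omega
      have h1 := card_cPlus (hprime p hp) (hmod p hp) K (hKp p hp) σ hσ L
      have h2 := card_cMinus (hprime p hp) (hmod p hp) K (hKp p hp) σ hσ L
      rw [hk] at h1 h2
      exact count_lines hne2 _ _ (sqA_ne (hprime p hp) (hmod p hp))
        (sqB_ne (hprime p hp) (hmod p hp)) _ _ k h1 h2)
    (2 * k) hκ0
    (by
      intro p hp
      simp only [hc]
      have hk0 : (0 : ℝ) ≤ (k : ℝ) ^ 2 := by positivity
      nlinarith)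
    (by
      intro p hp
      simp only [hc]
      nlinarith [sq_nonneg ((p : ℝ) - k)])
    r
  refine hmain.trans ?_
  have hppos : ∀ p ∈ P, (0 : ℝ) < p := fun p hp => by exact_mod_cast (hprime p hp).pos
  have e1 : ∏ p ∈ P, (1 - c p / (p : ℝ) ^ 2) = ∏ p ∈ P, (1 - (k : ℝ) / p) ^ 2 := by
    refine Finset.prod_congr rfl fun p hp => ?_
    have := hppos p hp
    simp only [hc]
    field_simp
    ring
  rw [e1]
  have hw0 : ∀ p ∈ P, 0 ≤ c p / (p : ℝ) ^ 2 := by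
    intro p hp
    have hkp : (k : ℝ) ≤ p := by
      have := hKp p hp
      exact_mod_cast (by omega : k ≤ p)
    apply div_nonneg _ (by positivity)
    simp only [hc]
    have hk0 : (0 : ℝ) ≤ k := by positivity
    nlinarith
  have hA : ∑ p ∈ P, c p / (p : ℝ) ^ 2 ≤ 2 * k * primeRecSum T := by
    have h1 : ∀ p ∈ P, c p / (p : ℝ) ^ 2 ≤ 2 * k * ((1 : ℝ) / p) := by
      intro p hp
      have := hppos p hp
      simp only [hc]
      rw [div_le_iff₀ (by positivity)]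
      have h2 : 2 * (k : ℝ) * ((1 : ℝ) / p) * (p : ℝ) ^ 2 = 2 * k * p := by
        field_simp
      rw [h2]
      have hk0 : (0 : ℝ) ≤ (k : ℝ) ^ 2 := by positivity
      nlinarith
    have h2 := Finset.sum_le_sum h1
    refine h2.trans ?_
    rw [← Finset.mul_sum]
    apply mul_le_mul_of_nonneg_left _ hκ0
    unfold primeRecSum
    refine Finset.sum_le_sum_of_subset_of_nonneg ?_ fun i _ _ => by positivity
    intro p hp
    exact (Finset.mem_filter.mp hp).1
  have hA0 : 0 ≤ ∑ p ∈ P, c p / (p : ℝ) ^ 2 := Finset.sum_nonneg hw0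
  have hfact : (0 : ℝ) < ((2 * r + 1).factorial : ℝ) := by positivity
  have hpow : (∑ p ∈ P, c p / (p : ℝ) ^ 2) ^ (2 * r + 1) / ((2 * r + 1).factorial : ℝ) ≤
      (2 * k * primeRecSum T) ^ (2 * r + 1) / ((2 * r + 1).factorial : ℝ) :=
    div_le_div_of_nonneg_right (pow_le_pow_left₀ hA0 hA _) hfact.le
  have hnn : (0 : ℝ) ≤ (n : ℝ) ^ 2 := by positivity
  have h5 := mul_le_mul_of_nonneg_left hpow hnn
  have hcard : ((P.card : ℕ) : ℝ) ≤ T := by exact_mod_cast card_splitPrimes_le K T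
  have hsum : ∑ p ∈ P, (p : ℝ) ≤ (T : ℝ) ^ 2 := sum_splitPrimes_le K T
  have h6 : (1 + 2 * (k : ℝ) * P.card) ^ (2 * r) ≤ (1 + 2 * k * T) ^ (2 * r) := by
    apply pow_le_pow_left₀ (by positivity)
    have := mul_le_mul_of_nonneg_left hcard hκ0
    linarith
  have h7 : (1 + 2 * (k : ℝ) * ∑ p ∈ P, (p : ℝ)) ^ (2 * r) ≤
      (1 + 2 * k * (T : ℝ) ^ 2) ^ (2 * r) := by
    apply pow_le_pow_left₀
    · have : 0 ≤ ∑ p ∈ P, (p : ℝ) := Finset.sum_nonneg fun p _ => by positivity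
      positivity
    · have := mul_le_mul_of_nonneg_left hsum hκ0
      linarith
  have h8 := mul_le_mul_of_nonneg_left h6 (by positivity : (0 : ℝ) ≤ 2 * n)
  rw [mul_add, mul_add]
  linarith

end Vale.Agent.Lib.P015
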