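import Mathlib
import Vale.Agent.Lib.P015.Lines

/-!
Gaussian primes avoid the lines at a split prime `p`, unless their norm equals `p`.
-/

namespace Vale.Agent.Lib.P015

open Finset

lemma norm_mk (u v : ℤ) : (⟨u, v⟩ : GaussianInt).norm = u ^ 2 + v ^ 2 := by
  rw [Zsqrtd.norm_def]; ring

/-- If `p = a^2 + b^2` divides `a u + b v` and `u + iv` is a Gaussian prime, then its norm is `p`. -/
lemma norm_of_dvd {p : ℕ} (hp : p.Prime) (a b u v : ℤ) (hab : a ^ 2 + b ^ 2 = p)
    (hdvd : (p : ℤ) ∣ a * u + b * v) (hw : Irreducible (⟨u, v⟩ : GaussianInt)) :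
    (⟨u, v⟩ : GaussianInt).norm = p := by
  set π : GaussianInt := ⟨a, b⟩ with hπ
  set w : GaussianInt := ⟨u, v⟩ with hwdef
  have hpz : Prime (p : ℤ) := Nat.prime_iff_prime_int.mp hp
  have hnπ : π.norm = p := by rw [hπ, norm_mk, hab]
  have h1 : ((π.norm : ℤ) : GaussianInt) = π * star π := Zsqrtd.norm_eq_mul_conj π
  rw [hnπ] at h1
  have h2 : (p : ℤ) ∣ a * v - b * u := by
    have h3 : (p : ℤ) ∣ (a * v - b * u) ^ 2 := by
      have h4 : (a * v - b * u) ^ 2 = (p : ℤ) * (u ^ 2 + v ^ 2) - (a * u + b * v) ^ 2 := by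
        rw [← hab]; ring
      rw [h4]
      exact dvd_sub (dvd_mul_right _ _) (dvd_pow hdvd (by norm_num))
    exact hpz.dvd_of_dvd_pow h3
  have hstarre : (star π).re = a := by simp [hπ]
  have hstarim : (star π).im = -b := by simp [hπ]
  have h3 : (((p : ℤ)) : GaussianInt) ∣ w * star π := by
    rw [Zsqrtd.intCast_dvd]
    constructor
    · have : (w * star π).re = a * u + b * v := by
        rw [Zsqrtd.re_mul, hstarre, hstarim]
        simp only [hwdef]
        ring
      rw [this]; exact hdvd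
    · have : (w * star π).im = a * v - b * u := by
        rw [Zsqrtd.im_mul, hstarre, hstarim]
        simp only [hwdef]
        ring
      rw [this]; exact h2
  rw [h1] at h3
  have hstar : star π ≠ 0 := by
    intro h0
    have h5 : π.norm = 0 := by
      have h6 := h1
      rw [h0, mul_zero] at h6
      have h7 : ((p : ℤ) : GaussianInt) = 0 := h6
      have h8 : (p : ℤ) = 0 := by exact_mod_cast h7
      rw [hnπ, h8]
    rw [hnπ] at h5
    have := hp.ne_zero
    omega
  have h4 : π ∣ w := (mul_dvd_mul_iff_right hstar).mp h3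
  obtain ⟨t, ht⟩ := h4
  have hunit := hw.isUnit_or_isUnit ht
  rcases hunit with hu | hu
  · exfalso
    have h5 := Zsqrtd.norm_eq_one_iff.mpr hu
    rw [hnπ] at h5
    have := hp.one_lt
    simp at h5
    omega
  · have h5 := Zsqrtd.norm_eq_one_iff.mpr hu
    have h6 : t.norm = 1 := by
      have h7 : 0 ≤ t.norm := GaussianInt.norm_nonneg t
      omega
    rw [ht, Zsqrtd.norm_mul, hnπ, h6, mul_one]

/-- The Gaussian integer attached to a box point and a point of the shape. -/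
def gPoint (L : ℤ) (z : ℕ × ℕ) (s : ℤ × ℤ) : GaussianInt :=
  ⟨(z.1 : ℤ) - L + s.1, (z.2 : ℤ) - L + s.2⟩

lemma not_lineEvent (σ : Finset (ℤ × ℤ)) (L : ℤ) (p : ℕ) (z : ℕ × ℕ) (hp : p.Prime)
    (h4 : p % 4 = 1)
    (hw : ∀ s ∈ σ, Irreducible (gPoint L z s) ∧ (gPoint L z s).norm ≠ p) :
    ¬ lineEvent σ L p z.1 z.2 := by
  have h5 := sq_spec hp h4
  have h5' : ((sqA p : ℤ)) ^ 2 + ((sqB p : ℤ)) ^ 2 = p := by exact_mod_cast h5
  rintro (h | h)
  · rw [cPlus, Finset.mem_image] at h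
    obtain ⟨s, hs, hse⟩ := h
    obtain ⟨h6, h7⟩ := hw s hs
    apply h7
    refine norm_of_dvd hp (sqA p) (sqB p) _ _ h5' ?_ h6
    rw [← ZMod.intCast_zmod_eq_zero_iff_dvd]
    push_cast at hse ⊢
    linear_combination -hse
  · rw [cMinus, Finset.mem_image] at h
    obtain ⟨s, hs, hse⟩ := h
    obtain ⟨h6, h7⟩ := hw s hs
    apply h7
    refine norm_of_dvd hp (sqA p) (-(sqB p : ℤ)) _ _ (by rw [neg_sq]; exact h5') ?_ h6
    rw [← ZMod.intCast_zmod_eq_zero_iff_dvd]
    push_cast at hse ⊢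
    linear_combination -hse

/-- Box points for which some shifted point has small norm are few. -/
lemma card_small_norm (L : ℤ) (n T : ℕ) (s : ℤ × ℤ) :
    (((range n ×ˢ range n).filter (fun z => (gPoint L z s).norm ≤ T)).card) ≤ (2 * T + 1) ^ 2 := by
  classical
  have hcard : ((range (2 * T + 1)) ×ˢ (range (2 * T + 1))).card = (2 * T + 1) ^ 2 := by
    rw [Finset.card_product, Finset.card_range, sq]
  rw [← hcard]
  refine Finset.card_le_card_of_injOn
    (fun z => (((z.1 : ℤ) - L + s.1 + T).toNat, ((z.2 : ℤ) - L + s.2 + T).toNat)) ?_ ?_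
  · intro z hz
    have hz' := (Finset.mem_filter.mp hz).2
    rw [gPoint, norm_mk] at hz'
    set u := (z.1 : ℤ) - L + s.1 with hu
    set v := (z.2 : ℤ) - L + s.2 with hv
    have hu2 : u ^ 2 ≤ T := by nlinarith [sq_nonneg v]
    have hv2 : v ^ 2 ≤ T := by nlinarith [sq_nonneg u]
    have hu3 : -(T : ℤ) ≤ u ∧ u ≤ T := by
      constructor <;> nlinarith [sq_nonneg (u - 1), sq_nonneg (u + 1)]
    have hv3 : -(T : ℤ) ≤ v ∧ v ≤ T := by
      constructor <;> nlinarith [sq_nonneg (v - 1), sq_nonneg (v + 1)]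
    simp only [Finset.coe_product, Finset.coe_range, Set.mem_prod, Set.mem_Iio]
    omega
  · intro z hz z' hz' h
    have hz1 := (Finset.mem_filter.mp hz).2
    have hz2 := (Finset.mem_filter.mp hz').2
    rw [gPoint, norm_mk] at hz1 hz2
    simp only [Prod.mk.injEq] at h
    have bound : ∀ u v : ℤ, u ^ 2 + v ^ 2 ≤ T → -(T : ℤ) ≤ u ∧ -(T : ℤ) ≤ v := by
      intro u v huv
      constructor
      · nlinarith [sq_nonneg v, sq_nonneg (u + 1), sq_nonneg (u - 1)]
      · nlinarith [sq_nonneg u, sq_nonneg (v + 1), sq_nonneg (v - 1)]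
    have b1 := bound _ _ hz1
    have b2 := bound _ _ hz2
    ext
    · omega
    · omega

/-- The count of box points all of whose shifts are Gaussian primes. -/
theorem shape_count (σ : Finset (ℤ × ℤ)) (k K : ℕ) (hk : σ.card = k) (hkK : k ≤ K)
    (hσ : ∀ s ∈ σ, ∀ s' ∈ σ, s ≠ s' → (s.1 - s'.1) ^ 2 + (s.2 - s'.2) ^ 2 ≤ (K : ℤ))
    (L : ℤ) (n T r : ℕ) :
    ∀ [DecidablePred fun z : ℕ × ℕ => ∀ s ∈ σ, Irreducible (gPoint L z s)],
    (((range n ×ˢ range n).filter (fun z => ∀ s ∈ σ, Irreducible (gPoint L z s))).card : ℝ) ≤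
      (n : ℝ) ^ 2 * (∏ p ∈ splitPrimes K T, (1 - (k : ℝ) / p) ^ 2 +
          (2 * k * primeRecSum T) ^ (2 * r + 1) / ((2 * r + 1).factorial : ℝ)) +
        2 * n * (1 + 2 * k * T) ^ (2 * r) + (1 + 2 * k * (T : ℝ) ^ 2) ^ (2 * r) +
        k * (2 * T + 1) ^ 2 := by
  intro _
  classical
  set A := (range n ×ˢ range n).filter (fun z => ∀ s ∈ σ, Irreducible (gPoint L z s)) with hA
  set B := (range n ×ˢ range n).filter
    (fun z => ∀ p ∈ splitPrimes K T, ¬ lineEvent σ L p z.1 z.2) with hB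
  set X := σ.biUnion (fun s => (range n ×ˢ range n).filter (fun z => (gPoint L z s).norm ≤ T))
    with hX
  have hsub : A ⊆ B ∪ X := by
    intro z hz
    have hz1 := Finset.mem_filter.mp hz
    by_cases hsmall : ∃ s ∈ σ, (gPoint L z s).norm ≤ T
    · obtain ⟨s, hs, hs2⟩ := hsmall
      exact Finset.mem_union_right _ (Finset.mem_biUnion.mpr
        ⟨s, hs, Finset.mem_filter.mpr ⟨hz1.1, hs2⟩⟩)
    · apply Finset.mem_union_left
      refine Finset.mem_filter.mpr ⟨hz1.1, fun p hp => ?_⟩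
      obtain ⟨h1, h2, h3, _⟩ := mem_splitPrimes.mp hp
      refine not_lineEvent σ L p z h2 h3 fun s hs => ⟨hz1.2 s hs, ?_⟩
      intro h4
      apply hsmall
      refine ⟨s, hs, ?_⟩
      rw [h4]
      exact_mod_cast (by omega : p ≤ T)
  have hXcard : (X.card : ℝ) ≤ k * (2 * T + 1) ^ 2 := by
    have h1 : X.card ≤ σ.card * (2 * T + 1) ^ 2 := by
      refine (Finset.card_biUnion_le).trans ?_
      calc _ ≤ ∑ _s ∈ σ, (2 * T + 1) ^ 2 :=
            Finset.sum_le_sum fun s _ => card_small_norm L n T s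
        _ = _ := by rw [Finset.sum_const, smul_eq_mul]
    rw [hk] at h1
    exact_mod_cast h1
  have hcard : (A.card : ℝ) ≤ B.card + X.card := by
    have := (Finset.card_le_card hsub).trans (Finset.card_union_le B X)
    exact_mod_cast this
  have hBbound := shape_sieve σ k K hk hkK hσ L n T r
  have hconv : (A.card : ℝ) = (((range n ×ˢ range n).filter
      (fun z => ∀ s ∈ σ, Irreducible (gPoint L z s))).card : ℝ) := by
    rw [hA]
  rw [← hconv]
  linarith

end Vale.Agent.Lib.P015
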