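import Mathlib

/-!
Elementary lower bound for the product of (1 - 1/p)^(-2) over primes p = 1 mod 4,
via the nonnegative multiplicative function rho(n)/n with rho = 1 * chi4.
-/

namespace Vale.Agent.Lib.P015

open Finset ArithmeticFunction

/-- The real values of the character mod 4. -/
noncomputable def chi (n : ℕ) : ℝ := ((ZMod.χ₄ (n : ZMod 4) : ℤ) : ℝ)

lemma chi_mul (m n : ℕ) : chi (m * n) = chi m * chi n := by
  simp [chi, map_mul]

lemma chi_one : chi 1 = 1 := by simp [chi]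

lemma chi_zero : chi 0 = 0 := by simp [chi]

lemma chi_pow (p j : ℕ) : chi (p ^ j) = chi p ^ j := by
  induction j with
  | zero => simp [chi_one]
  | succ j ih => rw [pow_succ, chi_mul, ih, pow_succ]

lemma chi_val (n : ℕ) :
    chi n = if n % 2 = 0 then 0 else if n % 4 = 1 then 1 else -1 := by
  unfold chi
  rw [ZMod.χ₄_nat_eq_if_mod_four]
  split_ifs <;> simp

lemma chi_mod_one {n : ℕ} (h : n % 4 = 1) : chi n = 1 := by
  rw [chi_val]
  have h2 : n % 2 ≠ 0 := by omega
  simp [h2, h]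

lemma chi_mod_three {n : ℕ} (h : n % 4 = 3) : chi n = -1 := by
  rw [chi_val]
  have h2 : n % 2 ≠ 0 := by omega
  have h3 : n % 4 ≠ 1 := by omega
  simp [h2, h3]

lemma chi_even {n : ℕ} (h : n % 2 = 0) : chi n = 0 := by
  rw [chi_val]; simp [h]

lemma abs_chi_le (n : ℕ) : |chi n| ≤ 1 := by
  rw [chi_val]
  split_ifs <;> simp

/-- chi(n)/n as an arithmetic function. -/
noncomputable def fChi : ArithmeticFunction ℝ := ⟨fun n => chi n / n, by simp⟩

/-- 1/n as an arithmetic function. -/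
noncomputable def fInv : ArithmeticFunction ℝ := ⟨fun n => 1 / n, by simp⟩

@[simp] lemma fChi_apply (n : ℕ) : fChi n = chi n / n := rfl

@[simp] lemma fInv_apply (n : ℕ) : fInv n = 1 / n := rfl

lemma fChi_mult : fChi.IsMultiplicative := by
  refine ⟨by simp [chi_one], fun {m n} _ => ?_⟩
  simp only [fChi_apply, chi_mul, Nat.cast_mul]
  rw [mul_div_mul_comm]

lemma fInv_mult : fInv.IsMultiplicative := by
  refine ⟨by simp, fun {m n} _ => ?_⟩
  simp only [fInv_apply, Nat.cast_mul]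
  rw [one_div_mul_one_div]

/-- The function rho(n)/n, a Dirichlet convolution. -/
noncomputable def bigF : ArithmeticFunction ℝ := fChi * fInv

lemma bigF_mult : bigF.IsMultiplicative := fChi_mult.mul fInv_mult

/-- Value of `bigF` on a prime power. -/
lemma bigF_prime_pow {p : ℕ} (hp : p.Prime) (j : ℕ) :
    bigF (p ^ j) = ∑ kl ∈ Finset.HasAntidiagonal.antidiagonal j,
      (chi p / p) ^ kl.1 * ((1 : ℝ) / p) ^ kl.2 := by
  have hp0 : (p : ℝ) ≠ 0 := by exact_mod_cast hp.ne_zero
  unfold bigF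
  rw [ArithmeticFunction.mul_apply, Nat.sum_divisorsAntidiagonal (fun x y => fChi x * fInv y),
    Nat.sum_divisors_prime_pow hp, Finset.Nat.sum_antidiagonal_eq_sum_range_succ_mk]
  refine Finset.sum_congr rfl fun i hi => ?_
  have hi' : i ≤ j := by simpa [Nat.lt_succ_iff] using hi
  have h1 : p ^ j / p ^ i = p ^ (j - i) := Nat.pow_div hi' hp.pos
  simp only [fChi_apply, fInv_apply, h1, chi_pow]
  push_cast
  rw [div_pow, div_pow, one_pow]

lemma bigF_prime_pow_eq {p : ℕ} (hp : p.Prime) (j : ℕ) :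
    bigF (p ^ j) = ((1 : ℝ) / p) ^ j * ∑ i ∈ range (j + 1), chi p ^ i := by
  have hp0 : (p : ℝ) ≠ 0 := by exact_mod_cast hp.ne_zero
  rw [bigF_prime_pow hp, Finset.Nat.sum_antidiagonal_eq_sum_range_succ_mk, Finset.mul_sum]
  refine Finset.sum_congr rfl fun i hi => ?_
  have hi' : i ≤ j := by simpa [Nat.lt_succ_iff] using hi
  have h1 : ((1 : ℝ) / p) ^ j = ((1 : ℝ) / p) ^ i * ((1 : ℝ) / p) ^ (j - i) := by
    rw [← pow_add, Nat.add_sub_cancel' hi']
  rw [h1, div_eq_mul_one_div (chi p) (p : ℝ), mul_pow]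
  ring

lemma geom_partial_nonneg (n : ℕ) (j : ℕ) : 0 ≤ ∑ i ∈ range (j + 1), chi n ^ i := by
  rw [chi_val]
  split_ifs with h1 h2
  · refine Finset.sum_nonneg fun i _ => by positivity
  · simp only [one_pow]; positivity
  · rw [neg_one_geom_sum]; split_ifs <;> norm_num

lemma bigF_prime_pow_nonneg {p : ℕ} (hp : p.Prime) (j : ℕ) : 0 ≤ bigF (p ^ j) := by
  rw [bigF_prime_pow_eq hp]
  exact mul_nonneg (by positivity) (geom_partial_nonneg p j)

lemma bigF_nonneg (n : ℕ) : 0 ≤ bigF n := by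
  rcases eq_or_ne n 0 with rfl | hn
  · simp
  rw [bigF_mult.multiplicative_factorization _ hn]
  refine Finset.prod_nonneg fun p hp => ?_
  exact bigF_prime_pow_nonneg (Nat.prime_of_mem_primeFactors hp) _

lemma norm_chi_div_lt_one {p : ℕ} (hp : p.Prime) : ‖chi p / p‖ < 1 := by
  have h2 : (2 : ℝ) ≤ p := by exact_mod_cast hp.two_le
  rw [Real.norm_eq_abs, abs_div, abs_of_pos (by linarith : (0 : ℝ) < p)]
  rw [div_lt_one (by linarith)]
  linarith [abs_chi_le p]

lemma norm_inv_lt_one {p : ℕ} (hp : p.Prime) : ‖(1 : ℝ) / p‖ < 1 := by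
  have h2 : (2 : ℝ) ≤ p := by exact_mod_cast hp.two_le
  rw [Real.norm_eq_abs, abs_div, abs_of_pos (by linarith : (0 : ℝ) < p), abs_one]
  rw [div_lt_one (by linarith)]
  linarith

lemma summable_bigF_prime_pow {p : ℕ} (hp : p.Prime) :
    Summable fun n : ℕ => ‖bigF (p ^ n)‖ := by
  have h1 := summable_geometric_of_norm_lt_one (norm_chi_div_lt_one hp)
  have h2 := summable_geometric_of_norm_lt_one (norm_inv_lt_one hp)
  have := summable_norm_sum_mul_antidiagonal_of_summable_norm h1.norm h2.norm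
  refine this.congr fun n => ?_
  rw [bigF_prime_pow hp]

lemma tsum_bigF_prime_pow {p : ℕ} (hp : p.Prime) :
    ∑' n : ℕ, bigF (p ^ n) = (1 - chi p / p)⁻¹ * (1 - (1 : ℝ) / p)⁻¹ := by
  have h1 := summable_geometric_of_norm_lt_one (norm_chi_div_lt_one hp)
  have h2 := summable_geometric_of_norm_lt_one (norm_inv_lt_one hp)
  rw [← tsum_geometric_of_norm_lt_one (norm_chi_div_lt_one hp),
    ← tsum_geometric_of_norm_lt_one (norm_inv_lt_one hp),
    tsum_mul_tsum_eq_tsum_sum_antidiagonal_of_summable_norm h1.norm h2.norm]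
  exact tsum_congr fun n => bigF_prime_pow hp n

/-- Finite sums of `bigF` are bounded by the Euler product. -/
lemma sum_bigF_le_euler (M : ℕ) :
    ∑ n ∈ Ioc 0 M, bigF n ≤
      ∏ p ∈ (M + 1).primesBelow, ((1 - chi p / p)⁻¹ * (1 - (1 : ℝ) / p)⁻¹) := by
  have hmul : ∀ {m n : ℕ}, Nat.Coprime m n → bigF (m * n) = bigF m * bigF n :=
    fun {m n} h => bigF_mult.2 h
  have h := (EulerProduct.summable_and_hasSum_smoothNumbers_prod_primesBelow_tsum
    (f := fun n => bigF n) bigF_mult.1 hmul (fun hp => summable_bigF_prime_pow hp) (M + 1)).2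
  have hprod : ∏ p ∈ (M + 1).primesBelow, ∑' n : ℕ, bigF (p ^ n) =
      ∏ p ∈ (M + 1).primesBelow, ((1 - chi p / p)⁻¹ * (1 - (1 : ℝ) / p)⁻¹) :=
    Finset.prod_congr rfl fun p hp => tsum_bigF_prime_pow (Nat.prime_of_mem_primesBelow hp)
  rw [← hprod]
  classical
  have hsm : ∀ n ∈ Ioc 0 M, n ∈ Nat.smoothNumbers (M + 1) := by
    intro n hn
    have hn' := Finset.mem_Ioc.mp hn
    rw [Nat.mem_smoothNumbers']
    intro p hp hpn
    have := Nat.le_of_dvd hn'.1 hpn
    omega
  have hle := sum_le_hasSum (f := fun m : Nat.smoothNumbers (M + 1) => bigF m)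
    ((Ioc 0 M).subtype (· ∈ Nat.smoothNumbers (M + 1))) (fun i _ => bigF_nonneg _) h
  have heq := Finset.sum_subtype_of_mem (s := Ioc 0 M) (p := (· ∈ Nat.smoothNumbers (M + 1)))
    (fun n => bigF n) hsm
  calc ∑ n ∈ Ioc 0 M, bigF n = _ := heq.symm
    _ ≤ _ := hle

/-- The alternating sum with weights `chi` of an antitone nonnegative sequence. -/
lemma alt_sum_ge (g : ℕ → ℝ) (hg : ∀ a b, 1 ≤ a → a ≤ b → g b ≤ g a) (h0 : ∀ a, 0 ≤ g a)
    (M : ℕ) (hM : 4 ≤ M) :
    g 1 - g 3 ≤ ∑ d ∈ range M, chi d * g d := by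
  set S : ℕ → ℝ := fun t => ∑ d ∈ range t, chi d * g d with hS
  have hstep4 : ∀ q : ℕ, S (4 * q) ≤ S (4 * (q + 1)) := by
    intro q
    have e1 : 4 * (q + 1) = 4 * q + 1 + 1 + 1 + 1 := by ring
    rw [e1]
    simp only [hS, Finset.sum_range_succ]
    have c0 : chi (4 * q) = 0 := chi_even (by omega)
    have c1 : chi (4 * q + 1) = 1 := chi_mod_one (by omega)
    have c2 : chi (4 * q + 1 + 1) = 0 := chi_even (by omega)
    have c3 : chi (4 * q + 1 + 1 + 1) = -1 := chi_mod_three (by omega)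
    rw [c0, c1, c2, c3]
    have := hg (4 * q + 1) (4 * q + 1 + 1 + 1) (by omega) (by omega)
    linarith
  have hbase : S 4 = g 1 - g 3 := by
    simp only [hS, Finset.sum_range_succ, Finset.sum_range_zero]
    rw [chi_zero, chi_one, chi_even (n := 2) (by norm_num), chi_mod_three (n := 3) (by norm_num)]
    ring
  have hmono : ∀ q : ℕ, S 4 ≤ S (4 * (q + 1)) := by
    intro q
    induction q with
    | zero => simp
    | succ q ih => exact ih.trans (hstep4 (q + 1))
  obtain ⟨q, r, hr, rfl⟩ : ∃ q r, r < 4 ∧ M = 4 * (q + 1) + r := by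
    refine ⟨M / 4 - 1, M % 4, Nat.mod_lt _ (by norm_num), ?_⟩
    omega
  have hfinal : S (4 * (q + 1)) ≤ S (4 * (q + 1) + r) := by
    have c0 : chi (4 * (q + 1)) = 0 := chi_even (by omega)
    have c1 : chi (4 * (q + 1) + 1) = 1 := chi_mod_one (by omega)
    have c2 : chi (4 * (q + 1) + 1 + 1) = 0 := chi_even (by omega)
    have g1 := h0 (4 * (q + 1) + 1)
    interval_cases r
    · simp
    · simp only [hS, Finset.sum_range_succ]
      rw [c0]; simp
    · simp only [hS]
      rw [show 4 * (q + 1) + 2 = 4 * (q + 1) + 1 + 1 by ring]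
      simp only [Finset.sum_range_succ]
      rw [c0, c1]; simp only [zero_mul, one_mul]; linarith
    · simp only [hS]
      rw [show 4 * (q + 1) + 3 = 4 * (q + 1) + 1 + 1 + 1 by ring]
      simp only [Finset.sum_range_succ]
      rw [c0, c1, c2]; simp only [zero_mul, one_mul]; linarith
  calc g 1 - g 3 = S 4 := hbase.symm
    _ ≤ S (4 * (q + 1)) := hmono q
    _ ≤ _ := hfinal

/-- The harmonic sum over `Ioc 0 t`. -/
noncomputable def hSum (t : ℕ) : ℝ := ∑ e ∈ Ioc 0 t, fInv e

lemma hSum_mono {a b : ℕ} (h : a ≤ b) : hSum a ≤ hSum b := by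
  unfold hSum
  refine Finset.sum_le_sum_of_subset_of_nonneg ?_ fun i _ _ => ?_
  · intro x hx
    simp only [Finset.mem_Ioc] at hx ⊢
    omega
  · simp only [fInv_apply]; positivity

lemma hSum_nonneg (a : ℕ) : 0 ≤ hSum a := by
  unfold hSum
  refine Finset.sum_nonneg fun i _ => ?_
  simp only [fInv_apply]; positivity

lemma hSum_ge_log (M : ℕ) : Real.log (M + 1) ≤ hSum M := by
  have h := log_add_one_le_harmonic M
  have h2 : ((harmonic M : ℚ) : ℝ) = hSum M := by
    unfold hSum harmonic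
    push_cast
    rw [Finset.range_eq_Ico]
    calc ∑ x ∈ Ico 0 M, ((x : ℝ) + 1)⁻¹ = ∑ x ∈ Ico 0 M, fInv (x + 1) := by
          refine Finset.sum_congr rfl fun x _ => ?_
          simp
      _ = ∑ e ∈ Ico (0 + 1) (M + 1), fInv e := Finset.sum_Ico_add' (fun e => fInv e) 0 M 1
      _ = ∑ e ∈ Ioc 0 M, fInv e := by
          refine Finset.sum_congr ?_ fun e _ => rfl
          ext x
          simp only [Finset.mem_Ioc, Finset.mem_Ico]
          omega
  rw [← h2]
  exact_mod_cast h

/-- Lower bound for the partial sums of `bigF`. -/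
lemma sum_bigF_ge (M : ℕ) (hM : 3 ≤ M) :
    (2 / 3 : ℝ) * Real.log (M + 1) ≤ ∑ n ∈ Ioc 0 M, bigF n := by
  have h1 : ∑ n ∈ Ioc 0 M, bigF n = ∑ d ∈ Ioc 0 M, fChi d * hSum (M / d) := by
    unfold bigF hSum
    exact ArithmeticFunction.sum_Ioc_mul_eq_sum_sum fChi fInv M
  set g : ℕ → ℝ := fun d => (1 / (d : ℝ)) * hSum (M / d) with hg
  have h2 : ∑ d ∈ Ioc 0 M, fChi d * hSum (M / d) = ∑ d ∈ range (M + 1), chi d * g d := by
    rw [Finset.range_eq_Ico, Finset.sum_eq_sum_Ico_succ_bot (by omega)]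
    simp only [chi_zero, zero_mul, zero_add]
    refine Finset.sum_congr ?_ fun d _ => ?_
    · ext x; simp only [Finset.mem_Ioc, Finset.mem_Ico]; omega
    · simp only [fChi_apply, hg]; ring
  have h3 := alt_sum_ge g (fun a b ha hab => by
    simp only [hg]
    have ha0 : (0 : ℝ) < a := by exact_mod_cast ha
    have hab' : (a : ℝ) ≤ b := by exact_mod_cast hab
    have : hSum (M / b) ≤ hSum (M / a) := hSum_mono (Nat.div_le_div_left hab ha)
    exact mul_le_mul (one_div_le_one_div_of_le ha0 hab') this (hSum_nonneg _) (by positivity))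
    (fun a => mul_nonneg (by positivity) (hSum_nonneg _)) (M + 1) (by omega)
  have h4 : g 1 = hSum M := by simp [hg]
  have h5 : g 3 ≤ (1 / 3) * hSum M := by
    simp only [hg]
    have := hSum_mono (Nat.div_le_self M 3)
    push_cast
    linarith
  have h6 := hSum_ge_log M
  rw [h1, h2]
  have hpos : (0 : ℝ) ≤ hSum M := hSum_nonneg _
  linarith

/-- Factors of the Euler product at primes not congruent to 1 mod 4 have product at most 4. -/
lemma prod_sq_inv_le (N : ℕ) (hN : 2 ≤ N) :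
    ∏ n ∈ Ico 2 N, ((1 - 1 / ((n : ℝ) ^ 2))⁻¹ : ℝ) ≤ (2 : ℝ) - 2 / (N : ℝ) := by
  induction N, hN using Nat.le_induction with
  | base => norm_num
  | succ N hN ih =>
    rw [Finset.prod_Ico_succ_top hN]
    have hN0 : (2 : ℝ) ≤ N := by exact_mod_cast hN
    have hpos : (0 : ℝ) < (1 - 1 / ((N : ℝ) ^ 2))⁻¹ := by
      apply inv_pos.mpr
      have : 1 / ((N : ℝ) ^ 2) < 1 := by
        rw [div_lt_one (by positivity)]
        nlinarith
      linarith
    refine (mul_le_mul_of_nonneg_right ih hpos.le).trans (le_of_eq ?_)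
    have h1 : (N : ℝ) - 1 ≠ 0 := by
      intro h
      linarith
    have h2 : (N : ℝ) + 1 ≠ 0 := by positivity
    have h3 : (N : ℝ) ≠ 0 := by positivity
    have h5 : (1 - 1 / ((N : ℝ) ^ 2))⁻¹ = (N : ℝ) ^ 2 / (((N : ℝ) - 1) * ((N : ℝ) + 1)) := by
      rw [inv_eq_iff_eq_inv, inv_div]
      field_simp
      ring
    rw [h5]
    push_cast
    field_simp
    ring

/-- Multiplicative lower bound for split primes. -/
theorem prod_split_ge (M : ℕ) (hM : 3 ≤ M) :
    Real.log (M + 1) / 6 ≤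
      ∏ p ∈ (M + 1).primesBelow with p % 4 = 1, ((1 - (1 : ℝ) / p)⁻¹) ^ 2 := by
  classical
  have h1 := (sum_bigF_ge M hM).trans (sum_bigF_le_euler M)
  set G : ℕ → ℝ := fun p => (1 - chi p / p)⁻¹ * (1 - (1 : ℝ) / p)⁻¹ with hG
  have hsplit : ∏ p ∈ (M + 1).primesBelow, G p =
      (∏ p ∈ (M + 1).primesBelow with p % 4 = 1, G p) *
        ∏ p ∈ (M + 1).primesBelow with ¬ p % 4 = 1, G p := by
    rw [Finset.prod_filter_mul_prod_filter_not]
  have heq1 : ∏ p ∈ (M + 1).primesBelow with p % 4 = 1, G p =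
      ∏ p ∈ (M + 1).primesBelow with p % 4 = 1, ((1 - (1 : ℝ) / p)⁻¹) ^ 2 := by
    refine Finset.prod_congr rfl fun p hp => ?_
    have hp' := (Finset.mem_filter.mp hp).2
    simp only [hG, chi_mod_one hp']
    rw [sq]
  have hp1 : ∀ p ∈ (M + 1).primesBelow, 1 ≤ (1 - (1 : ℝ) / p)⁻¹ := by
    intro p hp
    have hpp := Nat.prime_of_mem_primesBelow hp
    have h2 : (2 : ℝ) ≤ p := by exact_mod_cast hpp.two_le
    have h3 : (1 : ℝ) / p ≤ 1 / 2 := one_div_le_one_div_of_le (by norm_num) h2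
    have h4 : (0 : ℝ) < (1 : ℝ) / p := by positivity
    rw [one_le_inv₀ (by linarith)]
    linarith
  -- the remaining factors are at most 4
  have hrest : ∏ p ∈ (M + 1).primesBelow with ¬ p % 4 = 1, G p ≤ 4 := by
    set B := (M + 1).primesBelow.filter (fun p => ¬ p % 4 = 1) with hB
    have hsub : (B.erase 2) ⊆ Ico 2 (M + 1) := by
      intro p hp
      have hp' := Finset.mem_of_mem_erase hp
      have hp2 := (Finset.mem_filter.mp hp').1
      have hlt := Nat.lt_of_mem_primesBelow hp2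
      have hpp := Nat.prime_of_mem_primesBelow hp2
      exact Finset.mem_Ico.mpr ⟨hpp.two_le, hlt⟩
    have hprime3 : ∀ p ∈ B.erase 2, G p = (1 - 1 / ((p : ℝ) ^ 2))⁻¹ := by
      intro p hp
      have hp' := Finset.mem_of_mem_erase hp
      have hne : p ≠ 2 := Finset.ne_of_mem_erase hp
      have hp2 := (Finset.mem_filter.mp hp').1
      have hnot := (Finset.mem_filter.mp hp').2
      have hpp := Nat.prime_of_mem_primesBelow hp2
      have hodd : p % 2 = 1 := by
        rcases hpp.eq_two_or_odd with h | h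
        · exact absurd h hne
        · exact h
      have h3 : p % 4 = 3 := by omega
      have hr : (2 : ℝ) ≤ p := by exact_mod_cast hpp.two_le
      simp only [hG, chi_mod_three h3]
      rw [← mul_inv]
      congr 1
      field_simp
      ring
    have hle : ∏ p ∈ B.erase 2, G p ≤ 2 := by
      rw [Finset.prod_congr rfl hprime3]
      have hone : ∀ n ∈ Ico 2 (M + 1), (1 : ℝ) ≤ (1 - 1 / ((n : ℝ) ^ 2))⁻¹ := by
        intro n hn
        have hn2 : (2 : ℝ) ≤ n := by exact_mod_cast (Finset.mem_Ico.mp hn).1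
        have h5 : 0 < 1 / ((n : ℝ) ^ 2) := by positivity
        have h6 : 1 / ((n : ℝ) ^ 2) < 1 := by
          rw [div_lt_one (by positivity)]
          nlinarith
        rw [one_le_inv₀ (by linarith)]
        linarith
      calc ∏ p ∈ B.erase 2, (1 - 1 / ((p : ℝ) ^ 2))⁻¹
          ≤ ∏ n ∈ Ico 2 (M + 1), (1 - 1 / ((n : ℝ) ^ 2))⁻¹ :=
            Finset.prod_le_prod_of_subset_of_one_le hsub (fun n hn => by
              have := hone n (hsub hn); linarith) (fun n hn _ => hone n hn)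
        _ ≤ 2 - 2 / ((M + 1 : ℕ) : ℝ) := prod_sq_inv_le (M + 1) (by omega)
        _ ≤ 2 := by
            have : (0 : ℝ) ≤ 2 / ((M + 1 : ℕ) : ℝ) := by positivity
            linarith
    have hnonneg : ∀ p ∈ B, 0 ≤ G p := by
      intro p hp
      have hp2 := (Finset.mem_filter.mp hp).1
      have hpp := Nat.prime_of_mem_primesBelow hp2
      have h2 : (2 : ℝ) ≤ p := by exact_mod_cast hpp.two_le
      have hc := abs_chi_le p
      have h3 : chi p / p ≤ 1 / 2 := by
        rw [div_le_div_iff₀ (by linarith) (by norm_num)]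
        have := (abs_le.mp hc).2
        linarith
      have h4 : (1 : ℝ) / p ≤ 1 / 2 := one_div_le_one_div_of_le (by norm_num) h2
      simp only [hG]
      apply mul_nonneg <;> apply inv_nonneg.mpr <;> linarith
    by_cases h2B : 2 ∈ B
    · rw [← Finset.mul_prod_erase B G h2B]
      have hG2 : G 2 = 2 := by
        simp only [hG, chi_even (n := 2) (by norm_num)]
        norm_num
      rw [hG2]
      have h6 : 0 ≤ ∏ p ∈ B.erase 2, G p :=
        Finset.prod_nonneg (fun p hp => hnonneg p (Finset.mem_of_mem_erase hp))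
      linarith [h6]
    · rw [Finset.erase_eq_of_notMem h2B] at hle
      linarith
  have hsplitnn : 0 ≤ ∏ p ∈ (M + 1).primesBelow with p % 4 = 1, ((1 - (1 : ℝ) / p)⁻¹) ^ 2 :=
    Finset.prod_nonneg fun p _ => sq_nonneg _
  rw [hsplit, heq1] at h1
  have h5 := mul_le_mul_of_nonneg_left hrest hsplitnn
  linarith

end Vale.Agent.Lib.P015
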