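import Mathlib
import Vale.Agent.Lib.P015.Gauss
import Vale.Agent.Lib.P015.PrimeProd

/-!
Choice of parameters in the sieve bound: the count of box points all of whose shifts by a
shape of `k` points are Gaussian primes is `O(n^2 (log log n / log n)^k)`.
-/

namespace Vale.Agent.Lib.P015

open Finset Filter

/-- The Euler factor of small split primes. -/
noncomputable def constK (K : ℕ) : ℝ :=
  ∏ p ∈ (K + 1).primesBelow with p % 4 = 1, ((1 - (1 : ℝ) / p)⁻¹) ^ 2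

lemma one_sub_inv_pos {p : ℕ} (hp : p.Prime) : 0 < 1 - (1 : ℝ) / p := by
  have h2 : (2 : ℝ) ≤ p := by exact_mod_cast hp.two_le
  have h3 : (1 : ℝ) / p ≤ 1 / 2 := one_div_le_one_div_of_le (by norm_num) h2
  linarith

lemma one_le_factor {p : ℕ} (hp : p.Prime) : 1 ≤ ((1 - (1 : ℝ) / p)⁻¹) ^ 2 := by
  have h1 := one_sub_inv_pos hp
  have h2 : (1 : ℝ) ≤ (1 - (1 : ℝ) / p)⁻¹ := by
    rw [one_le_inv₀ h1]
    have : (0 : ℝ) < (1 : ℝ) / p := by
      have := hp.pos
      positivity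
    linarith
  nlinarith

lemma constK_pos (K : ℕ) : 0 < constK K := by
  unfold constK
  refine Finset.prod_pos fun p hp => ?_
  have hp' := Nat.prime_of_mem_primesBelow (Finset.mem_filter.mp hp).1
  linarith [one_le_factor hp']

/-- Main term of the sieve. -/
lemma main_term_le (k K T : ℕ) (hkK : k ≤ K) (hT : 3 ≤ T) :
    ∏ p ∈ splitPrimes K T, (1 - (k : ℝ) / p) ^ 2 ≤
      (6 * constK K / Real.log (T + 1)) ^ k := by
  classical
  set f : ℕ → ℝ := fun p => ((1 - (1 : ℝ) / p)⁻¹) ^ 2 with hf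
  set Q := (T + 1).primesBelow.filter (fun p => p % 4 = 1) with hQ
  set P := splitPrimes K T with hP
  have hPeq : P = Q.filter (fun p => K < p) := by
    rw [hP, hQ, splitPrimes, Finset.filter_filter]
  set R := Q.filter (fun p => ¬ K < p) with hR
  have hsplit : ∏ p ∈ Q, f p = (∏ p ∈ P, f p) * ∏ p ∈ R, f p := by
    rw [hPeq, hR, Finset.prod_filter_mul_prod_filter_not]
  have hQprime : ∀ p ∈ Q, p.Prime := fun p hp =>
    Nat.prime_of_mem_primesBelow (Finset.mem_filter.mp hp).1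
  have hPprime : ∀ p ∈ P, p.Prime := fun p hp => (mem_splitPrimes.mp hp).2.1
  have hf1 : ∀ p ∈ P, 1 ≤ f p := fun p hp => one_le_factor (hPprime p hp)
  have hRsub : R ⊆ (K + 1).primesBelow.filter (fun p => p % 4 = 1) := by
    intro p hp
    have h1 := Finset.mem_filter.mp hp
    have h2 := Finset.mem_filter.mp h1.1
    refine Finset.mem_filter.mpr ⟨Nat.mem_primesBelow.mpr ⟨by omega, ?_⟩, h2.2⟩
    exact Nat.prime_of_mem_primesBelow h2.1
  have hRle : ∏ p ∈ R, f p ≤ constK K := by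
    unfold constK
    refine Finset.prod_le_prod_of_subset_of_one_le hRsub ?_ ?_
    · intro p hp
      have := hQprime p (Finset.mem_filter.mp hp).1
      linarith [one_le_factor this]
    · intro p hp _
      exact one_le_factor (Nat.prime_of_mem_primesBelow (Finset.mem_filter.mp hp).1)
  have hPf : 1 ≤ ∏ p ∈ P, f p := Finset.one_le_prod hf1
  have h1 := prod_split_ge T hT
  have h2 : Real.log ((T : ℝ) + 1) / 6 ≤ (∏ p ∈ P, f p) * constK K := by
    refine h1.trans ?_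
    rw [← hQ, hsplit]
    exact mul_le_mul_of_nonneg_left hRle (by linarith)
  have hlogpos : 0 < Real.log ((T : ℝ) + 1) := by
    apply Real.log_pos
    have : (3 : ℝ) ≤ T := by exact_mod_cast hT
    linarith
  set V := ∏ p ∈ P, (1 - (1 : ℝ) / p) ^ 2 with hV
  have hVf : V * ∏ p ∈ P, f p = 1 := by
    rw [hV, ← Finset.prod_mul_distrib]
    refine Finset.prod_eq_one fun p hp => ?_
    have := one_sub_inv_pos (hPprime p hp)
    simp only [hf]
    rw [← mul_pow, mul_inv_cancel₀ this.ne', one_pow]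
  have hV0 : 0 ≤ V := Finset.prod_nonneg fun p _ => by positivity
  have hVle : V ≤ 6 * constK K / Real.log ((T : ℝ) + 1) := by
    rw [le_div_iff₀ hlogpos]
    have hc := constK_pos K
    have h3 : Real.log ((T : ℝ) + 1) ≤ 6 * ((∏ p ∈ P, f p) * constK K) := by linarith
    have h4 := mul_le_mul_of_nonneg_left h3 hV0
    calc V * Real.log ((T : ℝ) + 1) ≤ V * (6 * ((∏ p ∈ P, f p) * constK K)) := h4
      _ = (V * ∏ p ∈ P, f p) * (6 * constK K) := by ring
      _ = 6 * constK K := by rw [hVf, one_mul]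
  have h5 : ∏ p ∈ P, (1 - (k : ℝ) / p) ^ 2 ≤ ∏ p ∈ P, ((1 - (1 : ℝ) / p) ^ 2) ^ k := by
    refine Finset.prod_le_prod (fun p _ => by positivity) fun p hp => ?_
    have hpp := hPprime p hp
    have hKp := (mem_splitPrimes.mp hp).2.2.2
    have hppos : (0 : ℝ) < p := by exact_mod_cast hpp.pos
    have hkp : (k : ℝ) ≤ p := by exact_mod_cast (by omega : k ≤ p)
    have h6 : 0 ≤ 1 - (k : ℝ) / p := by
      rw [sub_nonneg, div_le_one hppos]; exact hkp
    have h7 : 1 - (k : ℝ) / p ≤ (1 - (1 : ℝ) / p) ^ k := by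
      have h8 := one_add_mul_le_pow (a := -((1 : ℝ) / p)) (by
        have h9 : (1 : ℝ) / p ≤ 1 := by
          rw [div_le_one hppos]
          exact_mod_cast hpp.one_lt.le
        linarith) k
      have e1 : 1 + (k : ℝ) * -((1 : ℝ) / p) = 1 - (k : ℝ) / p := by ring
      rw [e1] at h8
      rw [sub_eq_add_neg 1 ((1 : ℝ) / p)]
      exact h8
    calc (1 - (k : ℝ) / p) ^ 2 ≤ ((1 - (1 : ℝ) / p) ^ k) ^ 2 := pow_le_pow_left₀ h6 h7 2
      _ = _ := by rw [← pow_mul, ← pow_mul, mul_comm]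
  have h10 : ∏ p ∈ P, ((1 - (1 : ℝ) / p) ^ 2) ^ k = V ^ k := Finset.prod_pow _ _ _
  rw [h10] at h5
  refine h5.trans ?_
  exact pow_le_pow_left₀ hV0 hVle k

/-- Tail bound in the truncated sieve. -/
lemma tail_le (A : ℝ) (hA : 0 ≤ A) (m : ℕ) (hm : 8 * A ≤ m) :
    A ^ m / (m.factorial : ℝ) ≤ Real.exp (-(m : ℝ)) := by
  have h2 : Real.exp 2 ≤ 8 := by
    have h3 : Real.exp 2 = Real.exp 1 * Real.exp 1 := by
      rw [← Real.exp_add]; norm_num
    rw [h3]
    have h4 := Real.exp_one_lt_d9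
    have h5 := Real.exp_pos 1
    nlinarith
  set t := Real.exp 2 with ht
  have ht0 : 0 < t := Real.exp_pos 2
  have h3 := Real.pow_div_factorial_le_exp (t * A) (by positivity) m
  have h4 : t * A ≤ m := by nlinarith
  have h5 : t ^ m = Real.exp (2 * m) := by
    rw [ht, ← Real.exp_nat_mul]; ring_nf
  have hfact : (0 : ℝ) < (m.factorial : ℝ) := by positivity
  rw [mul_pow, h5, mul_div_assoc] at h3
  have h6 : A ^ m / (m.factorial : ℝ) ≤ Real.exp (t * A) / Real.exp (2 * m) := by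
    rw [le_div_iff₀ (Real.exp_pos _)]
    calc A ^ m / (m.factorial : ℝ) * Real.exp (2 * m) =
        Real.exp (2 * m) * (A ^ m / (m.factorial : ℝ)) := by ring
      _ ≤ _ := h3
  refine h6.trans ?_
  rw [← Real.exp_sub]
  apply Real.exp_le_exp.mpr
  linarith

lemma primeRecSum_nonneg (T : ℕ) : 0 ≤ primeRecSum T := by
  unfold primeRecSum
  exact Finset.sum_nonneg fun _ _ => by positivity

lemma eventually_log_le (c : ℝ) (hc : 0 < c) : ∃ Y0 : ℝ, ∀ y ≥ Y0, c * Real.log y ≤ y := by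
  have h := Real.isLittleO_log_id_atTop.bound (by positivity : (0 : ℝ) < 1 / c)
  obtain ⟨Y1, hY1⟩ := Filter.eventually_atTop.mp h
  refine ⟨max Y1 1, fun y hy => ?_⟩
  have hy1 : Y1 ≤ y := (le_max_left _ _).trans hy
  have hy2 : 1 ≤ y := (le_max_right _ _).trans hy
  have h2 := hY1 y hy1
  rw [Real.norm_eq_abs, Real.norm_eq_abs, id, abs_of_nonneg (Real.log_nonneg hy2),
    abs_of_nonneg (by linarith)] at h2
  have h3 := mul_le_mul_of_nonneg_left h2 hc.le
  calc c * Real.log y ≤ c * (1 / c * y) := h3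
    _ = y := by field_simp

/-- The tail of the truncated sieve with the chosen parameters. -/
lemma tail_part (k T r : ℕ) (hk : 1 ≤ k) (y l : ℝ) (hy : 0 < y) (hl : l = Real.log y)
    (hl1 : 1 ≤ l) (hSum : primeRecSum T ≤ 5 + 4 * l) (hr1 : 100 * (k : ℝ) * l ≤ r) :
    (2 * (k : ℝ) * primeRecSum T) ^ (2 * r + 1) / ((2 * r + 1).factorial : ℝ) ≤ (l / y) ^ k := by
  have hk0 : (1 : ℝ) ≤ k := by exact_mod_cast hk
  have hA0 : 0 ≤ 2 * (k : ℝ) * primeRecSum T :=
    mul_nonneg (by positivity) (primeRecSum_nonneg T)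
  have hmr : ((2 * r + 1 : ℕ) : ℝ) = 2 * r + 1 := by push_cast; ring
  have hkl : (k : ℝ) ≤ k * l := by nlinarith only [hk0, hl1]
  have hAm : 8 * (2 * (k : ℝ) * primeRecSum T) ≤ ((2 * r + 1 : ℕ) : ℝ) := by
    rw [hmr]
    have h1 : 2 * (k : ℝ) * primeRecSum T ≤ 2 * k * (5 + 4 * l) :=
      mul_le_mul_of_nonneg_left hSum (by positivity)
    have h3 : 100 * (k : ℝ) * l = 100 * (k * l) := by ring
    have h4 : 2 * (k : ℝ) * (5 + 4 * l) = 10 * k + 8 * (k * l) := by ring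
    linarith
  have htail := tail_le _ hA0 _ hAm
  refine htail.trans ?_
  have hyk : Real.exp (-((k : ℝ) * l)) = (1 / y) ^ k := by
    rw [Real.exp_neg, mul_comm, hl, Real.exp_mul, Real.exp_log hy, Real.rpow_natCast, one_div,
      inv_pow]
  have hoy : (1 / y) ^ k ≤ (l / y) ^ k :=
    pow_le_pow_left₀ (by positivity) (div_le_div_of_nonneg_right hl1 hy.le) k
  refine le_trans ?_ hoy
  rw [← hyk]
  apply Real.exp_le_exp.mpr
  rw [hmr]
  have h3 : 100 * (k : ℝ) * l = 100 * (k * l) := by ring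
  have h5 : 0 ≤ (k : ℝ) * l := by positivity
  linarith

/-- The power of the modulus bound is at most a small power of `n`. -/
lemma power_part (k T r : ℕ) (hk : 1 ≤ k) (y l u : ℝ) (hy : 0 < y) (hl1 : 1 ≤ l) (hu0 : 0 ≤ u)
    (hu : u * (2000 * (k : ℝ) * l) = y) (hT1 : (1 : ℝ) ≤ T)
    (hTle : (T : ℝ) ≤ Real.exp u) (hr2 : (r : ℝ) < 100 * k * l + 1)
    (hA2 : 202 * (k : ℝ) * Real.log (3 * k) * l ≤ y / 10) :
    (1 + 2 * (k : ℝ) * (T : ℝ) ^ 2) ^ (2 * r) ≤ Real.exp (y / 2) := by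
  have hk0 : (1 : ℝ) ≤ k := by exact_mod_cast hk
  have h1 : 1 + 2 * (k : ℝ) * (T : ℝ) ^ 2 ≤ Real.exp (Real.log (3 * k) + 2 * u) := by
    rw [Real.exp_add, Real.exp_log (by positivity)]
    have h2 : (T : ℝ) ^ 2 ≤ Real.exp (2 * u) := by
      have h3 : Real.exp (2 * u) = Real.exp u ^ 2 := by
        rw [← Real.exp_nat_mul]; push_cast; ring_nf
      rw [h3]
      exact pow_le_pow_left₀ (by positivity) hTle 2
    have hT2 : (1 : ℝ) ≤ (T : ℝ) ^ 2 := by nlinarith only [hT1]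
    have h4 : (1 : ℝ) ≤ (k : ℝ) * (T : ℝ) ^ 2 := by nlinarith only [hk0, hT2]
    have h5 : 3 * (k : ℝ) * (T : ℝ) ^ 2 ≤ 3 * k * Real.exp (2 * u) :=
      mul_le_mul_of_nonneg_left h2 (by positivity)
    have h6 : 3 * (k : ℝ) * (T : ℝ) ^ 2 = 3 * (k * (T : ℝ) ^ 2) := by ring
    have h7 : 2 * (k : ℝ) * (T : ℝ) ^ 2 = 2 * (k * (T : ℝ) ^ 2) := by ring
    linarith
  have h2 := pow_le_pow_left₀ (by positivity) h1 (2 * r)
  refine h2.trans ?_
  rw [← Real.exp_nat_mul]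
  apply Real.exp_le_exp.mpr
  push_cast
  have hkl : (k : ℝ) ≤ k * l := by nlinarith only [hk0, hl1]
  have hkl2 : (1 : ℝ) ≤ k * l := by linarith
  have h3 : 2 * (r : ℝ) ≤ 202 * k * l := by
    have e : 202 * (k : ℝ) * l = 202 * (k * l) := by ring
    have e2 : 100 * (k : ℝ) * l = 100 * (k * l) := by ring
    rw [e]
    rw [e2] at hr2
    linarith
  have hlog3k : 0 ≤ Real.log (3 * k) := Real.log_nonneg (by linarith)
  have h4 : 0 ≤ Real.log (3 * k) + 2 * u := by positivity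
  have h5 := mul_le_mul_of_nonneg_right h3 h4
  refine h5.trans ?_
  have h6 : 202 * (k : ℝ) * l * (2 * u) = 404 / 2000 * y := by
    rw [← hu]; ring
  have e2 : 202 * (k : ℝ) * l * (Real.log (3 * k) + 2 * u) =
      202 * k * Real.log (3 * k) * l + 202 * k * l * (2 * u) := by ring
  rw [e2, h6]
  linarith

/-- Collecting the error terms. -/
lemma error_part (k T r : ℕ) (hk : 1 ≤ k) (n s : ℝ) (hn : n = s ^ 2) (hs9 : 9 * (k : ℝ) ≤ s)
    (hT1 : (1 : ℝ) ≤ T) (hr : 1 ≤ r)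
    (hsT : (1 + 2 * (k : ℝ) * (T : ℝ) ^ 2) ^ (2 * r) ≤ s) :
    2 * n * (1 + 2 * (k : ℝ) * T) ^ (2 * r) + (1 + 2 * (k : ℝ) * (T : ℝ) ^ 2) ^ (2 * r) +
      k * (2 * (T : ℝ) + 1) ^ 2 ≤ 4 * n * s := by
  have hk0 : (1 : ℝ) ≤ k := by exact_mod_cast hk
  have hs1 : 1 ≤ s := by linarith
  have hs0 : 0 < s := by linarith
  have hnpos : 0 ≤ n := by rw [hn]; positivity
  have hn1 : 1 ≤ n := by rw [hn]; nlinarith only [hs1]
  have hT2 : (T : ℝ) ≤ (T : ℝ) ^ 2 := by nlinarith only [hT1]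
  have hbase1 : 1 ≤ 1 + 2 * (k : ℝ) * (T : ℝ) ^ 2 := by
    have : 0 ≤ 2 * (k : ℝ) * (T : ℝ) ^ 2 := by positivity
    linarith
  have hsT2 : (1 + 2 * (k : ℝ) * T) ^ (2 * r) ≤ s := by
    refine le_trans (pow_le_pow_left₀ (by positivity) ?_ _) hsT
    have h2 : 2 * (k : ℝ) * T ≤ 2 * k * (T : ℝ) ^ 2 :=
      mul_le_mul_of_nonneg_left hT2 (by positivity)
    linarith
  have hsT3 : (2 * (T : ℝ) + 1) ^ 2 ≤ 9 * s := by
    have h1 : (T : ℝ) ^ 2 ≤ s := by
      refine le_trans ?_ hsT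
      have h2 : (1 + 2 * (k : ℝ) * (T : ℝ) ^ 2) ≤ (1 + 2 * (k : ℝ) * (T : ℝ) ^ 2) ^ (2 * r) :=
        le_self_pow₀ hbase1 (by omega)
      refine le_trans ?_ h2
      have h3 : 0 ≤ (T : ℝ) ^ 2 := by positivity
      have h4 : (T : ℝ) ^ 2 ≤ 2 * (k : ℝ) * (T : ℝ) ^ 2 := by nlinarith only [h3, hk0]
      linarith
    nlinarith only [h1, hT1]
  have h1 := mul_le_mul_of_nonneg_left hsT2 (by positivity : (0 : ℝ) ≤ 2 * n)
  have h2 := mul_le_mul_of_nonneg_left hsT3 (by positivity : (0 : ℝ) ≤ (k : ℝ))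
  have h3 : (k : ℝ) * (9 * s) ≤ n * s := by
    rw [hn]
    have : 9 * (k : ℝ) * s ≤ s * s := mul_le_mul_of_nonneg_right hs9 hs0.le
    have e : s ^ 2 * s = s * s * s := by ring
    have h5 : 9 * (k : ℝ) * s * s ≤ s * s * s := mul_le_mul_of_nonneg_right this hs0.le
    have h6 : s ≤ s * s := by nlinarith only [hs1, hs0]
    have h7 : (k : ℝ) * (9 * s) = 9 * (k : ℝ) * s := by ring
    have h8 : 9 * (k : ℝ) * s ≤ 9 * (k : ℝ) * s * s := by
      have : 0 ≤ 9 * (k : ℝ) * s := by positivity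
      nlinarith only [this, hs1]
    rw [e, h7]
    linarith
  have h4 : s ≤ n * s := by nlinarith only [hn1, hs0]
  linarith

/-- Parameters: the choice of `T`. -/
lemma param_T (u : ℝ) (hu4 : Real.log 4 ≤ u) :
    4 ≤ ⌊Real.exp u⌋₊ ∧ ((⌊Real.exp u⌋₊ : ℕ) : ℝ) ≤ Real.exp u ∧
      u ≤ Real.log (((⌊Real.exp u⌋₊ : ℕ) : ℝ) + 1) ∧
      Real.log ((⌊Real.exp u⌋₊ : ℕ) : ℝ) ≤ u := by
  have hexpu4 : (4 : ℝ) ≤ Real.exp u := by
    rw [← Real.exp_log (by norm_num : (0 : ℝ) < 4)]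
    exact Real.exp_le_exp.mpr hu4
  have hT4 : 4 ≤ ⌊Real.exp u⌋₊ := Nat.le_floor (by exact_mod_cast hexpu4)
  have hT4' : (4 : ℝ) ≤ ((⌊Real.exp u⌋₊ : ℕ) : ℝ) := by exact_mod_cast hT4
  have hTle : ((⌊Real.exp u⌋₊ : ℕ) : ℝ) ≤ Real.exp u := Nat.floor_le (Real.exp_pos _).le
  have hTlt : Real.exp u < ((⌊Real.exp u⌋₊ : ℕ) : ℝ) + 1 := Nat.lt_floor_add_one _
  refine ⟨hT4, hTle, ?_, ?_⟩
  · rw [Real.le_log_iff_exp_le (by linarith)]
    exact hTlt.le
  · rw [Real.log_le_iff_le_exp (by linarith)]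
    exact hTle

/-- All the analytic input for a given `n` once the parameters satisfy the constraints. -/
lemma numeric_core (k K T r : ℕ) (hk : 1 ≤ k) (hkK : k ≤ K) (n y l u s : ℝ) (hn0 : 0 < n)
    (hy : 0 < y) (hl : l = Real.log y) (hl1 : 1 ≤ l) (hu0 : 0 < u)
    (hu : u * (2000 * (k : ℝ) * l) = y) (hT4 : 4 ≤ T) (hTle : (T : ℝ) ≤ Real.exp u)
    (hlogT1 : u ≤ Real.log ((T : ℝ) + 1)) (hlogT : Real.log T ≤ u)
    (hr1 : 100 * (k : ℝ) * l ≤ r) (hr2 : (r : ℝ) < 100 * k * l + 1)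
    (hA2 : 202 * (k : ℝ) * Real.log (3 * k) * l ≤ y / 10) (hA3 : (k : ℝ) * l ≤ y / 2)
    (hsdef : s = Real.exp (y / 2)) (hns : n = s ^ 2) (hs9 : 9 * (k : ℝ) ≤ s) :
    n ^ 2 * (∏ p ∈ splitPrimes K T, (1 - (k : ℝ) / p) ^ 2 +
          (2 * k * primeRecSum T) ^ (2 * r + 1) / ((2 * r + 1).factorial : ℝ)) +
        2 * n * (1 + 2 * k * T) ^ (2 * r) + (1 + 2 * k * (T : ℝ) ^ 2) ^ (2 * r) +
        k * (2 * T + 1) ^ 2 ≤
      ((6 * constK K * (2000 * k)) ^ k + 5) * n ^ 2 * (l / y) ^ k := by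
  have hk0 : (1 : ℝ) ≤ k := by exact_mod_cast hk
  have hT1 : (1 : ℝ) ≤ T := by
    have : (4 : ℝ) ≤ T := by exact_mod_cast hT4
    linarith
  have hT4' : (4 : ℝ) ≤ T := by exact_mod_cast hT4
  have hlpos : 0 < l := by linarith
  have hlogT0 : 0 < Real.log T := Real.log_pos (by linarith)
  have hr3 : 1 ≤ r := by
    have h1 : (1 : ℝ) ≤ k * l := by nlinarith only [hk0, hl1]
    have h2 : 100 * (k : ℝ) * l = 100 * (k * l) := by ring
    have : (1 : ℝ) ≤ r := by linarith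
    exact_mod_cast this
  -- main term
  have hmain := main_term_le k K T hkK (by omega)
  have hK0 := constK_pos K
  have hmain2 : ∏ p ∈ splitPrimes K T, (1 - (k : ℝ) / p) ^ 2 ≤
      (6 * constK K * (2000 * k)) ^ k * (l / y) ^ k := by
    refine hmain.trans ?_
    rw [← mul_pow]
    apply pow_le_pow_left₀
    · have : 0 < Real.log ((T : ℝ) + 1) := lt_of_lt_of_le hu0 hlogT1
      positivity
    · have e1 : 6 * constK K * (2000 * k) * (l / y) = 6 * constK K / u := by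
        rw [← hu]
        field_simp
      rw [e1]
      exact div_le_div_of_nonneg_left (by positivity) hu0 hlogT1
  -- tail
  have hSum : primeRecSum T ≤ 5 + 4 * l := by
    have h1 := primeRecSum_le T (by omega)
    have h2 : 2 * Real.log T ≤ y := by
      have h3 : 2 * u ≤ y := by
        rw [← hu]
        have h4 : 2 ≤ 2000 * (k : ℝ) * l := by
          have : (1 : ℝ) ≤ k * l := by nlinarith only [hk0, hl1]
          have e : 2000 * (k : ℝ) * l = 2000 * (k * l) := by ring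
          rw [e]; linarith
        have := mul_le_mul_of_nonneg_left h4 hu0.le
        linarith
      linarith
    have h3 : Real.log (2 * Real.log T) ≤ l := by
      rw [hl]; exact Real.log_le_log (by positivity) h2
    linarith
  have htail := tail_part k T r hk y l hy hl hl1 hSum hr1
  -- error terms
  have hpow : (1 + 2 * (k : ℝ) * (T : ℝ) ^ 2) ^ (2 * r) ≤ s := by
    rw [hsdef]
    exact power_part k T r hk y l u hy hl1 hu0.le hu hT1 hTle hr2 hA2
  have herr := error_part k T r hk n s hns hs9 hT1 hr3 hpow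
  have hoy : (1 / y) ^ k ≤ (l / y) ^ k :=
    pow_le_pow_left₀ (by positivity) (div_le_div_of_nonneg_right hl1 hy.le) k
  have hyk : Real.exp (-((k : ℝ) * l)) = (1 / y) ^ k := by
    rw [Real.exp_neg, mul_comm, hl, Real.exp_mul, Real.exp_log hy, Real.rpow_natCast, one_div,
      inv_pow]
  have hs0 : 0 < s := by rw [hsdef]; exact Real.exp_pos _
  have hinv : 1 / s ≤ (l / y) ^ k := by
    refine le_trans ?_ hoy
    rw [← hyk, hsdef, one_div, ← Real.exp_neg]
    apply Real.exp_le_exp.mpr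
    linarith
  have herr2 : 4 * n * s ≤ 4 * n ^ 2 * (l / y) ^ k := by
    have h2 : 4 * n * s = 4 * n ^ 2 * (1 / s) := by
      rw [hns]
      field_simp
    rw [h2]
    exact mul_le_mul_of_nonneg_left hinv (by positivity)
  have hnn : (0 : ℝ) ≤ n ^ 2 := by positivity
  have hfinal := mul_le_mul_of_nonneg_left (add_le_add hmain2 htail) hnn
  have e3 : ((6 * constK K * (2000 * k)) ^ k + 5) * n ^ 2 * (l / y) ^ k =
      n ^ 2 * ((6 * constK K * (2000 * k)) ^ k * (l / y) ^ k + (l / y) ^ k) +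
        4 * n ^ 2 * (l / y) ^ k := by ring
  rw [e3]
  linarith

/-- The sieve bound for a shape, with parameters chosen. -/
theorem shape_asymp (k K : ℕ) (hk : 1 ≤ k) (hkK : k ≤ K) :
    ∃ C : ℝ, 0 < C ∧ ∃ n0 : ℕ, ∀ n ≥ n0, ∀ σ : Finset (ℤ × ℤ), σ.card = k →
      (∀ s ∈ σ, ∀ s' ∈ σ, s ≠ s' → (s.1 - s'.1) ^ 2 + (s.2 - s'.2) ^ 2 ≤ (K : ℤ)) →
      ∀ L : ℤ, ∀ [DecidablePred fun z : ℕ × ℕ => ∀ s ∈ σ, Irreducible (gPoint L z s)],
      (((range n ×ˢ range n).filter (fun z => ∀ s ∈ σ, Irreducible (gPoint L z s))).card : ℝ) ≤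
        C * (n : ℝ) ^ 2 * (Real.log (Real.log n) / Real.log n) ^ k := by
  have hk0 : (1 : ℝ) ≤ k := by exact_mod_cast hk
  have hlog3k : 0 ≤ Real.log (3 * k) := Real.log_nonneg (by linarith)
  have hlog4 : 0 ≤ Real.log 4 := Real.log_nonneg (by norm_num)
  set c0 : ℝ := Real.log 4 * (2000 * k) + 10 * (202 * k * Real.log (3 * k)) + 2 * k + 1 with hc0
  have hc0pos : 0 < c0 := by positivity
  obtain ⟨Y0, hY0⟩ := eventually_log_le c0 hc0pos
  set Y1 : ℝ := max (max Y0 (Real.exp 1)) (2 * Real.log (9 * k)) with hY1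
  have hK0 := constK_pos K
  refine ⟨(6 * constK K * (2000 * k)) ^ k + 5, by positivity, ⌈Real.exp Y1⌉₊ + 1, ?_⟩
  intro n hn σ hσk hσ L _
  have hn1 : Real.exp Y1 < n := by
    have : (⌈Real.exp Y1⌉₊ : ℝ) ≤ (n : ℝ) - 1 := by
      have h1 : ⌈Real.exp Y1⌉₊ + 1 ≤ n := hn
      have h2 : ((⌈Real.exp Y1⌉₊ + 1 : ℕ) : ℝ) ≤ n := by exact_mod_cast h1
      push_cast at h2
      linarith
    have h3 := Nat.le_ceil (Real.exp Y1)
    linarith
  have hnpos : (0 : ℝ) < n := lt_trans (Real.exp_pos _) hn1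
  have hyY1 : Y1 < Real.log n := by
    rw [Real.lt_log_iff_exp_lt hnpos]
    exact hn1
  have hyY0 : Y0 ≤ Real.log n := ((le_max_left _ _).trans (le_max_left _ _)).trans hyY1.le
  have hye : Real.exp 1 ≤ Real.log n :=
    ((le_max_right _ _).trans (le_max_left _ _)).trans hyY1.le
  have hy9 : 2 * Real.log (9 * k) ≤ Real.log n := (le_max_right _ _).trans hyY1.le
  have hypos : 0 < Real.log n := lt_of_lt_of_le (Real.exp_pos 1) hye
  have hl1 : 1 ≤ Real.log (Real.log n) := by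
    rw [Real.le_log_iff_exp_le hypos]
    exact hye
  have hlpos : 0 < Real.log (Real.log n) := by linarith
  have hc0y : c0 * Real.log (Real.log n) ≤ Real.log n := hY0 _ hyY0
  -- consequences of the eventual bound
  set l := Real.log (Real.log n) with hl
  have e1 : c0 * l = Real.log 4 * (2000 * k) * l + 10 * (202 * k * Real.log (3 * k) * l) +
      2 * (k * l) + l := by rw [hc0]; ring
  have p1 : 0 ≤ Real.log 4 * (2000 * k) * l := by positivity
  have p2 : 0 ≤ 202 * k * Real.log (3 * k) * l := by positivity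
  have p3 : 0 ≤ (k : ℝ) * l := by positivity
  have hA1 : Real.log 4 * (2000 * k) * l ≤ Real.log n := by linarith
  have hA2 : 202 * (k : ℝ) * Real.log (3 * k) * l ≤ Real.log n / 10 := by linarith
  have hA3 : (k : ℝ) * l ≤ Real.log n / 2 := by linarith
  set u := Real.log n / (2000 * k * l) with hu
  have hBl : 0 < 2000 * (k : ℝ) * l := by positivity
  have hu4 : Real.log 4 ≤ u := by
    rw [hu, le_div_iff₀ hBl]
    have e : Real.log 4 * (2000 * k * l) = Real.log 4 * (2000 * k) * l := by ring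
    rw [e]; exact hA1
  have hu0 : 0 < u := by positivity
  have huy : u * (2000 * (k : ℝ) * l) = Real.log n := by
    rw [hu]; field_simp
  obtain ⟨hT4, hTle, hlogT1, hlogT⟩ := param_T u hu4
  set T := ⌊Real.exp u⌋₊ with hT
  set r := ⌈100 * (k : ℝ) * l⌉₊ with hr
  have hr1 : 100 * (k : ℝ) * l ≤ r := Nat.le_ceil _
  have hr2 : (r : ℝ) < 100 * k * l + 1 := Nat.ceil_lt_add_one (by positivity)
  set s := Real.exp (Real.log n / 2) with hs
  have hs2 : (n : ℝ) = s ^ 2 := by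
    rw [hs, ← Real.exp_nat_mul]
    have : ((2 : ℕ) : ℝ) * (Real.log n / 2) = Real.log n := by push_cast; ring
    rw [this, Real.exp_log hnpos]
  have hs9 : 9 * (k : ℝ) ≤ s := by
    rw [hs]
    have h1 : Real.log (9 * k) ≤ Real.log n / 2 := by linarith
    calc 9 * (k : ℝ) = Real.exp (Real.log (9 * k)) := (Real.exp_log (by positivity)).symm
      _ ≤ _ := Real.exp_le_exp.mpr h1
  have hcount := shape_count σ k K hσk hkK hσ L n T r
  refine hcount.trans ?_
  exact numeric_core k K T r hk hkK n (Real.log n) l u s hnpos hypos hl hl1 hu0 huy hT4 hTle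
    hlogT1 hlogT hr1 hr2 hA2 hA3 hs hs2 hs9

end Vale.Agent.Lib.P015
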