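import Mathlib

/-!
The graph `G_D` of the Gaussian moat problem and the set of Gaussian primes whose connected
component in `G_D` has at least `k` vertices.
-/

namespace Vale.Agent.Lib.P015

/-- The graph `G_D`: the vertices are the Gaussian primes (irreducible elements of `ℤ[i]`, all
associates counted) and two distinct primes are adjacent when `|z - w|^2 ≤ D^2`. -/
def moatGraph (D : ℝ) : SimpleGraph {z : GaussianInt // Irreducible z} where
  Adj z w := z ≠ w ∧ ((z.1 - w.1).norm : ℝ) ≤ D ^ 2
  symm := ⟨fun z w h => ⟨h.1.symm, by rw [← neg_sub, Zsqrtd.norm_neg]; exact h.2⟩⟩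
  loopless := ⟨fun z h => h.1 rfl⟩

/-- The Gaussian primes whose connected component in `G_D` has at least `k` vertices
(an infinite component counts as having at least `k` vertices for every `k`). -/
def clusterPrimes (D : ℝ) (k : ℕ) : Set GaussianInt :=
  {z | ∃ h : Irreducible z, (k : ℕ∞) ≤ ((moatGraph D).connectedComponentMk ⟨z, h⟩).supp.encard}

end Vale.Agent.Lib.P015
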