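import Mathlib
import Vale.Agent.Lib.P015.Defs
import Vale.Agent.Lib.P015.Asymp

/-!
Every Gaussian prime in a large connected component of `G_D` has `k - 1` prime neighbours in a
bounded window; combined with the sieve this bounds the number of such primes.
-/

namespace Vale.Agent.Lib.P015

open Finset

lemma adj_coord {D : ℝ} {v w : {z : GaussianInt // Irreducible z}} (h : (moatGraph D).Adj v w) :
    |((w.1.re - v.1.re : ℤ) : ℝ)| ≤ |D| ∧ |((w.1.im - v.1.im : ℤ) : ℝ)| ≤ |D| := by
  have h1 : ((v.1 - w.1).norm : ℝ) ≤ D ^ 2 := h.2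
  have h2 : (v.1 - w.1).norm = (v.1.re - w.1.re) ^ 2 + (v.1.im - w.1.im) ^ 2 := by
    rw [Zsqrtd.norm_def]
    simp only [Zsqrtd.re_sub, Zsqrtd.im_sub]
    ring
  rw [h2] at h1
  push_cast at h1 ⊢
  constructor
  · rw [← sq_le_sq]
    nlinarith only [h1, sq_nonneg ((v.1.im : ℝ) - w.1.im)]
  · rw [← sq_le_sq]
    nlinarith only [h1, sq_nonneg ((v.1.re : ℝ) - w.1.re)]

/-- Growing a finite connected piece inside a large component. -/
lemma exists_cluster_finset (D : ℝ) (k : ℕ) (z : {z : GaussianInt // Irreducible z})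
    (hz : (k : ℕ∞) ≤ ((moatGraph D).connectedComponentMk z).supp.encard) (j : ℕ)
    (hj : j + 1 ≤ k) :
    ∃ S : Finset {z : GaussianInt // Irreducible z}, S.card = j + 1 ∧ z ∈ S ∧
      (∀ v ∈ S, v ∈ ((moatGraph D).connectedComponentMk z).supp) ∧
      ∀ v ∈ S, |((v.1.re - z.1.re : ℤ) : ℝ)| ≤ j * |D| ∧ |((v.1.im - z.1.im : ℤ) : ℝ)| ≤ j * |D| := by
  classical
  induction j with
  | zero =>
    refine ⟨{z}, by simp, by simp, ?_, ?_⟩
    · intro v hv
      rw [Finset.mem_singleton] at hv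
      subst hv
      simp
    · intro v hv
      rw [Finset.mem_singleton] at hv
      subst hv
      simp
  | succ j ih =>
    obtain ⟨S, hS1, hS2, hS3, hS4⟩ := ih (by omega)
    -- a vertex of the component outside `S`
    have hex : ∃ u ∈ ((moatGraph D).connectedComponentMk z).supp, u ∉ S := by
      by_contra hne
      push Not at hne
      have h1 : ((moatGraph D).connectedComponentMk z).supp ⊆ (S : Set _) := fun u hu => hne u hu
      have h2 := Set.encard_le_encard h1
      rw [Set.encard_coe_eq_coe_finsetCard, hS1] at h2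
      have h3 := hz.trans h2
      have h4 : k ≤ j + 1 := by exact_mod_cast h3
      omega
    obtain ⟨u, hu1, hu2⟩ := hex
    have hreach : (moatGraph D).Reachable z u := by
      rw [SimpleGraph.ConnectedComponent.mem_supp_iff,
        SimpleGraph.ConnectedComponent.eq] at hu1
      exact hu1.symm
    obtain ⟨p⟩ := hreach
    obtain ⟨d, _, hd1, hd2⟩ := p.exists_boundary_dart (S : Set _) (by simpa using hS2)
      (by simpa using hu2)
    have hadj : (moatGraph D).Adj d.fst d.snd := d.adj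
    have hd1' : d.fst ∈ S := by simpa using hd1
    have hd2' : d.snd ∉ S := by simpa using hd2
    refine ⟨insert d.snd S, ?_, Finset.mem_insert_of_mem hS2, ?_, ?_⟩
    · rw [Finset.card_insert_of_notMem hd2', hS1]
    · intro v hv
      rcases Finset.mem_insert.mp hv with rfl | hv
      · have h5 := hS3 _ hd1'
        rw [SimpleGraph.ConnectedComponent.mem_supp_iff] at h5 ⊢
        rw [← h5]
        exact (SimpleGraph.ConnectedComponent.sound hadj.reachable).symm
      · exact hS3 v hv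
    · intro v hv
      have hD0 : 0 ≤ |D| := abs_nonneg D
      rcases Finset.mem_insert.mp hv with rfl | hv
      · obtain ⟨h6, h7⟩ := hS4 _ hd1'
        obtain ⟨h8, h9⟩ := adj_coord hadj
        push_cast at h6 h7 h8 h9 ⊢
        constructor
        · calc |(d.snd.1.re : ℝ) - z.1.re|
              = |((d.snd.1.re : ℝ) - d.fst.1.re) + ((d.fst.1.re : ℝ) - z.1.re)| := by ring_nf
            _ ≤ _ := abs_add_le _ _
            _ ≤ |D| + j * |D| := add_le_add h8 h6
            _ = (j + 1) * |D| := by ring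
        · calc |(d.snd.1.im : ℝ) - z.1.im|
              = |((d.snd.1.im : ℝ) - d.fst.1.im) + ((d.fst.1.im : ℝ) - z.1.im)| := by ring_nf
            _ ≤ _ := abs_add_le _ _
            _ ≤ |D| + j * |D| := add_le_add h9 h7
            _ = (j + 1) * |D| := by ring
      · obtain ⟨h6, h7⟩ := hS4 v hv
        push_cast at h6 h7 ⊢
        have : (j : ℝ) * |D| ≤ (j + 1) * |D| := by nlinarith
        exact ⟨h6.trans this, h7.trans this⟩

/-- The window used for shapes. -/
noncomputable def window (B : ℕ) : Finset (ℤ × ℤ) := Finset.Icc (-(B : ℤ)) B ×ˢ Finset.Icc (-(B : ℤ)) B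

/-- A prime in a component with at least `k` vertices lies in `k` shifted primes of a shape. -/
lemma exists_shape (D : ℝ) (k : ℕ) (hk : 1 ≤ k) (z : GaussianInt) (hz : z ∈ clusterPrimes D k) :
    ∃ σ ∈ (window ⌈(k : ℝ) * |D|⌉₊).powersetCard k,
      ∀ s ∈ σ, Irreducible (⟨z.re + s.1, z.im + s.2⟩ : GaussianInt) := by
  classical
  obtain ⟨hzi, hzk⟩ := hz
  obtain ⟨S, hS1, _, _, hS4⟩ := exists_cluster_finset D k ⟨z, hzi⟩ hzk (k - 1) (by omega)
  have hk' : k - 1 + 1 = k := by omega
  rw [hk'] at hS1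
  set f : {z : GaussianInt // Irreducible z} → ℤ × ℤ :=
    fun v => (v.1.re - z.re, v.1.im - z.im) with hf
  have hfinj : Function.Injective f := by
    intro v w h
    simp only [hf, Prod.mk.injEq] at h
    apply Subtype.ext
    apply Zsqrtd.ext
    · linarith [h.1]
    · linarith [h.2]
  refine ⟨S.image f, ?_, ?_⟩
  · rw [Finset.mem_powersetCard]
    refine ⟨?_, by rw [Finset.card_image_of_injective _ hfinj, hS1]⟩
    intro s hs
    obtain ⟨v, hv, rfl⟩ := Finset.mem_image.mp hs
    obtain ⟨h1, h2⟩ := hS4 v hv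
    have hD0 : 0 ≤ |D| := abs_nonneg D
    have hbound : ((k - 1 : ℕ) : ℝ) * |D| ≤ (⌈(k : ℝ) * |D|⌉₊ : ℝ) := by
      refine le_trans ?_ (Nat.le_ceil _)
      apply mul_le_mul_of_nonneg_right _ hD0
      exact_mod_cast Nat.sub_le k 1
    have h3 := abs_le.mp (h1.trans hbound)
    have h4 := abs_le.mp (h2.trans hbound)
    simp only [hf, window, Finset.mem_product, Finset.mem_Icc]
    refine ⟨⟨?_, ?_⟩, ⟨?_, ?_⟩⟩
    · have := h3.1; exact_mod_cast this
    · have := h3.2; exact_mod_cast this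
    · have := h4.1; exact_mod_cast this
    · have := h4.2; exact_mod_cast this
  · intro s hs
    obtain ⟨v, _, rfl⟩ := Finset.mem_image.mp hs
    have e : (⟨z.re + (v.1.re - z.re), z.im + (v.1.im - z.im)⟩ : GaussianInt) = v.1 := by
      apply Zsqrtd.ext
      · simp
      · simp
    simp only [hf]
    rw [e]
    exact v.2

lemma window_diff (B : ℕ) (k : ℕ) : ∀ s ∈ window B, ∀ s' ∈ window B, s ≠ s' →
    (s.1 - s'.1) ^ 2 + (s.2 - s'.2) ^ 2 ≤ ((8 * B ^ 2 + k : ℕ) : ℤ) := by
  intro s hs s' hs' _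
  simp only [window, Finset.mem_product, Finset.mem_Icc] at hs hs'
  obtain ⟨⟨a1, a2⟩, ⟨b1, b2⟩⟩ := hs
  obtain ⟨⟨c1, c2⟩, ⟨d1, d2⟩⟩ := hs'
  push_cast
  have hB : (0 : ℤ) ≤ B := by positivity
  have hk : (0 : ℤ) ≤ k := by positivity
  have h1 : (s.1 - s'.1) ^ 2 ≤ (2 * (B : ℤ)) ^ 2 := by
    apply sq_le_sq' <;> linarith
  have h2 : (s.2 - s'.2) ^ 2 ≤ (2 * (B : ℤ)) ^ 2 := by
    apply sq_le_sq' <;> linarith
  nlinarith

/-- From `n` to `x` in the final quantity. -/
lemma log_ratio_le (x : ℝ) (n : ℕ) (hx : Real.exp (2 * Real.exp 1) ≤ x)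
    (hn1 : 2 * Real.sqrt x ≤ n) :
    Real.log (Real.log n) / Real.log n ≤ 2 * (Real.log (Real.log x) / Real.log x) := by
  have hxpos : 0 < x := lt_of_lt_of_le (Real.exp_pos _) hx
  have hlogx : 2 * Real.exp 1 ≤ Real.log x := by
    rw [Real.le_log_iff_exp_le hxpos]
    exact hx
  have hepos := Real.exp_pos 1
  have hsqrt : 0 < Real.sqrt x := Real.sqrt_pos.mpr hxpos
  have hlogsqrt : Real.log (Real.sqrt x) = Real.log x / 2 := Real.log_sqrt hxpos.le
  have hnpos : (0 : ℝ) < n := lt_of_lt_of_le (by positivity) hn1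
  have h1 : Real.log x / 2 ≤ Real.log n := by
    rw [← hlogsqrt]
    apply Real.log_le_log hsqrt
    linarith
  set y0 := Real.log x / 2 with hy0
  have hy0e : Real.exp 1 ≤ y0 := by rw [hy0]; linarith
  have hanti : Real.log (Real.log n) / Real.log n ≤ Real.log y0 / y0 :=
    Real.log_div_self_antitoneOn (a := y0) (b := Real.log n) hy0e (hy0e.trans h1) h1
  refine hanti.trans ?_
  have hlogxpos : 0 < Real.log x := by linarith
  have e : Real.log y0 / y0 = 2 * (Real.log y0 / Real.log x) := by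
    rw [hy0]; field_simp
  rw [e]
  apply mul_le_mul_of_nonneg_left _ (by norm_num)
  apply div_le_div_of_nonneg_right _ hlogxpos.le
  apply Real.log_le_log (by linarith)
  rw [hy0]; linarith

/-- The main counting theorem for clusters in the moat graph. -/
theorem cluster_density (D : ℝ) (k : ℕ) (hk : 1 ≤ k) :
    ∃ C x0 : ℝ, ∀ x ≥ x0,
      {z ∈ clusterPrimes D k | (z.norm : ℝ) ≤ x}.Finite ∧
      (({z ∈ clusterPrimes D k | (z.norm : ℝ) ≤ x}.ncard : ℕ) : ℝ) ≤
        C * x * (Real.log (Real.log x) / Real.log x) ^ k := by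
  classical
  set B := ⌈(k : ℝ) * |D|⌉₊ with hB
  set K := 8 * B ^ 2 + k with hK
  obtain ⟨C, hC, n0, hn0⟩ := shape_asymp k K hk (by omega)
  set Fam := (window B).powersetCard k with hFam
  refine ⟨(Fam.card : ℝ) * (C * 25 * 2 ^ k),
    max (max ((n0 : ℝ) ^ 2) (Real.exp (2 * Real.exp 1))) 1, ?_⟩
  intro x hx
  have hx1 : 1 ≤ x := (le_max_right _ _).trans hx
  have hxe : Real.exp (2 * Real.exp 1) ≤ x := ((le_max_right _ _).trans (le_max_left _ _)).trans hx
  have hxn : (n0 : ℝ) ^ 2 ≤ x := ((le_max_left _ _).trans (le_max_left _ _)).trans hx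
  have hxpos : 0 < x := by linarith
  set L := ⌈Real.sqrt x⌉₊ with hL
  set n := 2 * L + 1 with hn
  have hsqrt1 : 1 ≤ Real.sqrt x := by
    rw [Real.one_le_sqrt]; exact hx1
  have hLge : Real.sqrt x ≤ L := Nat.le_ceil _
  have hLlt : (L : ℝ) < Real.sqrt x + 1 := Nat.ceil_lt_add_one (by positivity)
  have hncast : (n : ℝ) = 2 * L + 1 := by rw [hn]; push_cast; ring
  have hnlow : 2 * Real.sqrt x ≤ n := by rw [hncast]; linarith
  have hnhigh : (n : ℝ) ≤ 5 * Real.sqrt x := by rw [hncast]; linarith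
  have hnn0 : n0 ≤ n := by
    have h1 : (n0 : ℝ) ≤ Real.sqrt x := Real.le_sqrt_of_sq_le hxn
    have h2 : (n0 : ℝ) ≤ n := by linarith
    exact_mod_cast h2
  have hnsq : (n : ℝ) ^ 2 ≤ 25 * x := by
    have h1 := pow_le_pow_left₀ (by positivity) hnhigh 2
    have h2 : (5 * Real.sqrt x) ^ 2 = 25 * x := by
      rw [mul_pow, Real.sq_sqrt hxpos.le]; norm_num
    linarith
  have hratio := log_ratio_le x n hxe hnlow
  -- the finite sets for each shape
  set W : Finset (ℤ × ℤ) → Finset (ℕ × ℕ) := fun σ =>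
    (range n ×ˢ range n).filter (fun z => ∀ s ∈ σ, Irreducible (gPoint L z s)) with hW
  set φ : ℕ × ℕ → GaussianInt := fun w => ⟨(w.1 : ℤ) - L, (w.2 : ℤ) - L⟩ with hφ
  set U : Finset GaussianInt := (Fam.biUnion W).image φ with hU
  have hsub : {z ∈ clusterPrimes D k | (z.norm : ℝ) ≤ x} ⊆ (U : Set GaussianInt) := by
    rintro z ⟨hz1, hz2⟩
    obtain ⟨σ, hσ, hσ2⟩ := exists_shape D k hk z hz1
    have hnorm : z.norm = z.re ^ 2 + z.im ^ 2 := by rw [Zsqrtd.norm_def]; ring
    have hbd : ∀ t : ℤ, ((t : ℝ)) ^ 2 ≤ x → -(L : ℤ) ≤ t ∧ t ≤ L := by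
      intro t ht
      have h1 : |(t : ℝ)| ≤ Real.sqrt x := Real.abs_le_sqrt ht
      have h2 : |(t : ℝ)| ≤ L := h1.trans hLge
      have h3 := abs_le.mp h2
      constructor
      · exact_mod_cast h3.1
      · exact_mod_cast h3.2
    have hre2 : ((z.re : ℤ) : ℝ) ^ 2 ≤ x := by
      rw [hnorm] at hz2
      push_cast at hz2
      nlinarith only [hz2, sq_nonneg ((z.im : ℤ) : ℝ)]
    have him2 : ((z.im : ℤ) : ℝ) ^ 2 ≤ x := by
      rw [hnorm] at hz2
      push_cast at hz2
      nlinarith only [hz2, sq_nonneg ((z.re : ℤ) : ℝ)]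
    obtain ⟨a1, a2⟩ := hbd _ hre2
    obtain ⟨b1, b2⟩ := hbd _ him2
    rw [Finset.mem_coe, hU, Finset.mem_image]
    refine ⟨((z.re + L).toNat, (z.im + L).toNat), ?_, ?_⟩
    · refine Finset.mem_biUnion.mpr ⟨σ, hσ, ?_⟩
      simp only [hW, Finset.mem_filter, Finset.mem_product, Finset.mem_range]
      refine ⟨⟨by omega, by omega⟩, fun s hs => ?_⟩
      have h5 : gPoint L ((z.re + L).toNat, (z.im + L).toNat) s =
          (⟨z.re + s.1, z.im + s.2⟩ : GaussianInt) := by
        unfold gPoint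
        apply Zsqrtd.ext
        · simp only
          have : (((z.re + L).toNat : ℕ) : ℤ) = z.re + L := Int.toNat_of_nonneg (by omega)
          rw [this]; ring
        · simp only
          have : (((z.im + L).toNat : ℕ) : ℤ) = z.im + L := Int.toNat_of_nonneg (by omega)
          rw [this]; ring
      rw [h5]
      exact hσ2 s hs
    · simp only [hφ]
      apply Zsqrtd.ext
      · simp only
        have : (((z.re + L).toNat : ℕ) : ℤ) = z.re + L := Int.toNat_of_nonneg (by omega)
        rw [this]; ring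
      · simp only
        have : (((z.im + L).toNat : ℕ) : ℤ) = z.im + L := Int.toNat_of_nonneg (by omega)
        rw [this]; ring
  refine ⟨(U.finite_toSet).subset hsub, ?_⟩
  have hncard : ({z ∈ clusterPrimes D k | (z.norm : ℝ) ≤ x}.ncard : ℕ) ≤ U.card := by
    rw [← Set.ncard_coe_finset U]
    exact Set.ncard_le_ncard hsub U.finite_toSet
  have hUcard : U.card ≤ ∑ σ ∈ Fam, (W σ).card :=
    Finset.card_image_le.trans Finset.card_biUnion_le
  have hlognn : 0 ≤ Real.log (Real.log n) / Real.log n := by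
    have hnlarge : Real.exp (Real.exp 1) ≤ n := by
      have h1 : Real.log x / 2 ≤ Real.log n := by
        have hlogsqrt : Real.log (Real.sqrt x) = Real.log x / 2 := Real.log_sqrt hxpos.le
        rw [← hlogsqrt]
        apply Real.log_le_log (by positivity)
        linarith
      have hlogx : 2 * Real.exp 1 ≤ Real.log x := by
        rw [Real.le_log_iff_exp_le hxpos]
        exact hxe
      have hnpos : (0 : ℝ) < n := by positivity
      rw [← Real.le_log_iff_exp_le hnpos]
      linarith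
    have hnpos : (0 : ℝ) < n := by positivity
    have h1 : Real.exp 1 ≤ Real.log n := by
      rw [Real.le_log_iff_exp_le hnpos]
      exact hnlarge
    have h2 : 1 ≤ Real.log n := le_trans (by linarith [Real.add_one_le_exp (1 : ℝ)]) h1
    exact div_nonneg (Real.log_nonneg (by linarith [Real.add_one_le_exp (1 : ℝ)] ))
      (by linarith)
  have hshape : ∀ σ ∈ Fam, ((W σ).card : ℝ) ≤
      C * (n : ℝ) ^ 2 * (Real.log (Real.log n) / Real.log n) ^ k := by
    intro σ hσ
    have hσ' := Finset.mem_powersetCard.mp hσ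
    have hdiff : ∀ s ∈ σ, ∀ s' ∈ σ, s ≠ s' →
        (s.1 - s'.1) ^ 2 + (s.2 - s'.2) ^ 2 ≤ (K : ℤ) := fun s hs s' hs' hne =>
      window_diff B k s (hσ'.1 hs) s' (hσ'.1 hs') hne
    exact hn0 n hnn0 σ hσ'.2 hdiff L
  have htotal : ((U.card : ℕ) : ℝ) ≤
      (Fam.card : ℝ) * (C * (n : ℝ) ^ 2 * (Real.log (Real.log n) / Real.log n) ^ k) := by
    calc ((U.card : ℕ) : ℝ) ≤ ((∑ σ ∈ Fam, (W σ).card : ℕ) : ℝ) := by exact_mod_cast hUcard
      _ = ∑ σ ∈ Fam, ((W σ).card : ℝ) := by push_cast; rfl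
      _ ≤ ∑ _σ ∈ Fam, (C * (n : ℝ) ^ 2 * (Real.log (Real.log n) / Real.log n) ^ k) :=
          Finset.sum_le_sum hshape
      _ = _ := by rw [Finset.sum_const, nsmul_eq_mul]
  have hpow : (Real.log (Real.log n) / Real.log n) ^ k ≤
      2 ^ k * (Real.log (Real.log x) / Real.log x) ^ k := by
    rw [← mul_pow]
    exact pow_le_pow_left₀ hlognn hratio k
  have hlogxx : 0 ≤ (Real.log (Real.log x) / Real.log x) ^ k := by
    have hlogx : 2 * Real.exp 1 ≤ Real.log x := by
      rw [Real.le_log_iff_exp_le hxpos]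
      exact hxe
    have h0 := Real.exp_pos 1
    have h1 := Real.add_one_le_exp (1 : ℝ)
    apply pow_nonneg
    apply div_nonneg
    · apply Real.log_nonneg; linarith
    · linarith
  calc (({z ∈ clusterPrimes D k | (z.norm : ℝ) ≤ x}.ncard : ℕ) : ℝ)
      ≤ ((U.card : ℕ) : ℝ) := by exact_mod_cast hncard
    _ ≤ (Fam.card : ℝ) * (C * (n : ℝ) ^ 2 * (Real.log (Real.log n) / Real.log n) ^ k) := htotal
    _ ≤ (Fam.card : ℝ) * (C * (25 * x) * (2 ^ k * (Real.log (Real.log x) / Real.log x) ^ k)) := by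
        apply mul_le_mul_of_nonneg_left _ (by positivity)
        apply mul_le_mul (mul_le_mul_of_nonneg_left hnsq hC.le) hpow (pow_nonneg hlognn k)
          (by positivity)
    _ = _ := by ring

end Vale.Agent.Lib.P015
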