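import Mathlib
import Vale.Agent.Lib.P015.Main

/-!
Near moats: every walk in `G_D` from inside a disc of radius `R` to outside the disc of radius
`3 R` passes through a very small set of Gaussian integers.
-/

namespace Vale.Agent.Lib.P015

open Finset

/-- The sup norm of a Gaussian integer. -/
def supN (z : GaussianInt) : ℤ := max |z.re| |z.im|

lemma supN_step {D : ℝ} {K : ℕ} (hK : |D| ≤ K) {v w : {z : GaussianInt // Irreducible z}}
    (h : (moatGraph D).Adj v w) : supN w.1 ≤ supN v.1 + K := by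
  obtain ⟨h1, h2⟩ := adj_coord h
  have h3 : |w.1.re - v.1.re| ≤ (K : ℤ) := by
    have := h1.trans hK
    exact_mod_cast this
  have h4 : |w.1.im - v.1.im| ≤ (K : ℤ) := by
    have := h2.trans hK
    exact_mod_cast this
  have h5 : |w.1.re| ≤ |v.1.re| + K := by
    have := abs_sub_abs_le_abs_sub w.1.re v.1.re
    linarith
  have h6 : |w.1.im| ≤ |v.1.im| + K := by
    have := abs_sub_abs_le_abs_sub w.1.im v.1.im
    linarith
  unfold supN
  have h7 := le_max_left |v.1.re| |v.1.im|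
  have h8 := le_max_right |v.1.re| |v.1.im|
  exact max_le (by linarith) (by linarith)

/-- A walk from inside to outside level `t` visits the band above `t`. -/
lemma exists_band {D : ℝ} {K : ℕ} (hK : |D| ≤ K) (t : ℤ)
    {a b : {z : GaussianInt // Irreducible z}} (p : (moatGraph D).Walk a b)
    (ha : supN a.1 < t) (hb : t ≤ supN b.1) :
    ∃ v ∈ p.support, t ≤ supN v.1 ∧ supN v.1 ≤ t + K := by
  induction p with
  | nil => exact absurd hb (not_le.mpr ha)
  | @cons u c d h q ih =>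
    by_cases hc : supN c.1 < t
    · obtain ⟨v, hv, hv2⟩ := ih hc hb
      exact ⟨v, by simp [hv], hv2⟩
    · refine ⟨c, ?_, not_lt.mp hc, ?_⟩
      · simp
      · have := supN_step hK h
        linarith

/-- Every vertex of a walk with at least `k` distinct vertices lies in `clusterPrimes D k`. -/
lemma mem_cluster_of_walk {D : ℝ} {k : ℕ} {a b : {z : GaussianInt // Irreducible z}}
    (p : (moatGraph D).Walk a b) (S : Finset {z : GaussianInt // Irreducible z})
    (hS : ∀ v ∈ S, v ∈ p.support) (hcard : k ≤ S.card)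
    {v : {z : GaussianInt // Irreducible z}} (hv : v ∈ p.support) :
    v.1 ∈ clusterPrimes D k := by
  refine ⟨v.2, ?_⟩
  have hreach : ∀ u ∈ p.support, (moatGraph D).Reachable a u := fun u hu =>
    ⟨p.takeUntil u hu⟩
  have hsub : (S : Set _) ⊆ ((moatGraph D).connectedComponentMk v).supp := by
    intro u hu
    rw [SimpleGraph.ConnectedComponent.mem_supp_iff, SimpleGraph.ConnectedComponent.eq]
    exact (hreach u (hS u hu)).symm.trans (hreach v hv)
  have h1 := Set.encard_le_encard hsub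
  rw [Set.encard_coe_eq_coe_finsetCard] at h1
  refine le_trans ?_ h1
  exact_mod_cast hcard

/-- The final numerical inequality. -/
lemma bridge_numeric (C : ℝ) (hC : 0 < C) (A : ℕ) :
    ∃ R1 : ℝ, ∀ R ≥ R1, ∀ x : ℝ, R ^ 2 ≤ x → x ≤ 32 * R ^ 2 →
      C * x * (Real.log (Real.log x) / Real.log x) ^ (A + 1) ≤ R ^ 2 / Real.log R ^ A := by
  have h0 := (Real.isLittleO_pow_log_id_atTop (n := A + 1)).bound
    (show (0 : ℝ) < 1 / (32 * C) by positivity)
  obtain ⟨Y1, hY1⟩ := Filter.eventually_atTop.mp h0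
  refine ⟨max (max (Real.exp Y1) (Real.exp (Real.exp 1))) (Real.exp 1), ?_⟩
  intro R hR x hx1 hx2
  have hR1 : Real.exp Y1 ≤ R := ((le_max_left _ _).trans (le_max_left _ _)).trans hR
  have hR2 : Real.exp (Real.exp 1) ≤ R := ((le_max_right _ _).trans (le_max_left _ _)).trans hR
  have hR3 : Real.exp 1 ≤ R := (le_max_right _ _).trans hR
  have hRpos : 0 < R := lt_of_lt_of_le (Real.exp_pos 1) hR3
  have hy1 : 1 ≤ Real.log R := by
    rw [Real.le_log_iff_exp_le hRpos]; exact hR3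
  have hye : Real.exp 1 ≤ Real.log R := by
    rw [Real.le_log_iff_exp_le hRpos]; exact hR2
  have hyY : Y1 ≤ Real.log R := by
    rw [Real.le_log_iff_exp_le hRpos]; exact hR1
  set y := Real.log R with hy
  have hypos : 0 < y := by linarith
  have hxpos : 0 < x := lt_of_lt_of_le (by positivity) hx1
  have hlogx : y ≤ Real.log x := by
    have h1 : R ≤ R ^ 2 := by
      have h2 : (1 : ℝ) ≤ R := by
        have := Real.add_one_le_exp (1 : ℝ)
        linarith
      nlinarith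
    exact Real.log_le_log hRpos (h1.trans hx1)
  have hanti : Real.log (Real.log x) / Real.log x ≤ Real.log y / y :=
    Real.log_div_self_antitoneOn (a := y) (b := Real.log x) hye (hye.trans hlogx) hlogx
  have hly0 : 0 ≤ Real.log y := Real.log_nonneg (by
    have := Real.add_one_le_exp (1 : ℝ)
    linarith)
  have hlx0 : 0 ≤ Real.log (Real.log x) / Real.log x := by
    apply div_nonneg
    · apply Real.log_nonneg
      have := Real.add_one_le_exp (1 : ℝ)
      linarith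
    · linarith
  have h1 : (Real.log (Real.log x) / Real.log x) ^ (A + 1) ≤ (Real.log y / y) ^ (A + 1) :=
    pow_le_pow_left₀ hlx0 hanti _
  have h2 := hY1 y hyY
  rw [Real.norm_eq_abs, Real.norm_eq_abs, id, abs_of_nonneg (by positivity),
    abs_of_nonneg hypos.le] at h2
  have h3 : (Real.log y / y) ^ (A + 1) ≤ 1 / (32 * C) / y ^ A := by
    rw [div_pow, pow_succ y A, div_le_div_iff₀ (by positivity) (by positivity)]
    calc Real.log y ^ (A + 1) * y ^ A ≤ (1 / (32 * C) * y) * y ^ A :=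
          mul_le_mul_of_nonneg_right h2 (by positivity)
      _ = _ := by ring
  calc C * x * (Real.log (Real.log x) / Real.log x) ^ (A + 1)
      ≤ C * (32 * R ^ 2) * (1 / (32 * C) / y ^ A) := by
        apply mul_le_mul _ (h1.trans h3) (by positivity) (by positivity)
        exact mul_le_mul_of_nonneg_left hx2 hC.le
    _ = R ^ 2 / y ^ A := by field_simp

/-- The norm is bounded by twice the square of the sup norm. -/
lemma norm_le_supN (z : GaussianInt) : z.norm ≤ 2 * supN z ^ 2 := by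
  have h1 : z.norm = z.re ^ 2 + z.im ^ 2 := by rw [Zsqrtd.norm_def]; ring
  have h2 : z.re ^ 2 ≤ supN z ^ 2 := by
    rw [← sq_abs z.re]
    exact pow_le_pow_left₀ (abs_nonneg _) (le_max_left _ _) 2
  have h3 : z.im ^ 2 ≤ supN z ^ 2 := by
    rw [← sq_abs z.im]
    exact pow_le_pow_left₀ (abs_nonneg _) (le_max_right _ _) 2
  rw [h1]
  linarith

lemma supN_sq_le_norm (z : GaussianInt) : supN z ^ 2 ≤ z.norm := by
  have h1 : z.norm = z.re ^ 2 + z.im ^ 2 := by rw [Zsqrtd.norm_def]; ring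
  rw [h1]
  unfold supN
  rcases max_cases |z.re| |z.im| with ⟨h, _⟩ | ⟨h, _⟩
  · rw [h, sq_abs]; nlinarith [sq_nonneg z.im]
  · rw [h, sq_abs]; nlinarith [sq_nonneg z.re]

lemma supN_nonneg (z : GaussianInt) : 0 ≤ supN z := (abs_nonneg _).trans (le_max_left _ _)

/-- The lower ends of the square bands. -/
def bandT (R₀ K j : ℕ) : ℤ := (R₀ : ℤ) + 1 + j * (K + 1)

lemma bandT_lt (R₀ K : ℕ) {i j : ℕ} (h : i < j) : bandT R₀ K i + K < bandT R₀ K j := by
  unfold bandT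
  have h3 : ((i : ℤ) + 1) * ((K : ℤ) + 1) ≤ j * ((K : ℤ) + 1) := by
    apply mul_le_mul_of_nonneg_right _ (by positivity)
    exact_mod_cast h
  linarith

lemma bandT_bounds (R₀ K J j : ℕ) (hJ : J * (K + 1) + 1 ≤ R₀) (hj : j < J) :
    (R₀ : ℤ) < bandT R₀ K j ∧ bandT R₀ K j + K ≤ 2 * (R₀ : ℤ) := by
  unfold bandT
  have h0 : (0 : ℤ) ≤ (j : ℤ) * ((K : ℤ) + 1) := by positivity
  have h1 : ((j : ℤ) + 1) * ((K : ℤ) + 1) ≤ (J : ℤ) * ((K : ℤ) + 1) := by
    apply mul_le_mul_of_nonneg_right _ (by positivity)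
    exact_mod_cast hj
  have h2 : ((J : ℤ) * ((K : ℤ) + 1)) + 1 ≤ R₀ := by exact_mod_cast hJ
  constructor <;> linarith

/-- The part of a finite set in the band number `j`. -/
def bandPart (X : Finset GaussianInt) (R₀ K j : ℕ) : Finset GaussianInt :=
  X.filter (fun z => bandT R₀ K j ≤ supN z ∧ supN z ≤ bandT R₀ K j + K)

/-- One of the bands holds at most its share of a finite set. -/
lemma exists_thin_band (X : Finset GaussianInt) (R₀ K J : ℕ) (hJ : 0 < J) :
    ∃ j ∈ range J, ((bandPart X R₀ K j).card : ℝ) ≤ X.card / J := by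
  classical
  have hdisj : ∀ i ∈ range J, ∀ j ∈ range J, i ≠ j →
      Disjoint (bandPart X R₀ K i) (bandPart X R₀ K j) := by
    intro i _ j _ hij
    rw [Finset.disjoint_left]
    intro z hzi hzj
    have h1 := (Finset.mem_filter.mp hzi).2
    have h2 := (Finset.mem_filter.mp hzj).2
    rcases lt_or_gt_of_ne hij with h | h
    · have := bandT_lt R₀ K h
      linarith [h1.2, h2.1]
    · have := bandT_lt R₀ K h
      linarith [h1.1, h2.2]
  have hsum : ∑ j ∈ range J, (bandPart X R₀ K j).card ≤ X.card := by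
    rw [← Finset.card_biUnion hdisj]
    apply Finset.card_le_card
    intro z hz
    obtain ⟨j, _, hj⟩ := Finset.mem_biUnion.mp hz
    exact (Finset.mem_filter.mp hj).1
  have hne : (range J).Nonempty := ⟨0, Finset.mem_range.mpr hJ⟩
  apply Finset.exists_le_of_sum_le hne
  rw [Finset.sum_const, Finset.card_range, nsmul_eq_mul]
  have hJ0 : (J : ℝ) ≠ 0 := by
    have : (0 : ℝ) < J := by exact_mod_cast hJ
    exact this.ne'
  rw [mul_div_cancel₀ _ hJ0]
  exact_mod_cast hsum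

/-- A long walk across the bands meets every band in a point of `clusterPrimes D k`. -/
lemma walk_band {D : ℝ} {K : ℕ} (hK : |D| ≤ K) (R₀ J k : ℕ) (hJ : J * (K + 1) + 1 ≤ R₀)
    (hkJ : k ≤ J) {z w : {z : GaussianInt // Irreducible z}} (p : (moatGraph D).Walk z w)
    (hz : supN z.1 ≤ R₀) (hw : 2 * (R₀ : ℤ) ≤ supN w.1) (j0 : ℕ) (hj0 : j0 < J) :
    ∃ v ∈ p.support, v.1 ∈ clusterPrimes D k ∧ bandT R₀ K j0 ≤ supN v.1 ∧
      supN v.1 ≤ bandT R₀ K j0 + K := by
  classical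
  have hband : ∀ j ∈ range J, ∃ v ∈ p.support,
      bandT R₀ K j ≤ supN v.1 ∧ supN v.1 ≤ bandT R₀ K j + K := by
    intro j hj
    obtain ⟨h1, h2⟩ := bandT_bounds R₀ K J j hJ (Finset.mem_range.mp hj)
    refine exists_band hK _ p (lt_of_le_of_lt hz h1) ?_
    have : (0 : ℤ) ≤ K := by positivity
    linarith
  have : Nonempty {z : GaussianInt // Irreducible z} := ⟨z⟩
  choose! v hv1 hv2 hv3 using hband
  have hinj : Set.InjOn v (range J : Set ℕ) := by
    intro i hi j hj hij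
    by_contra hne
    have hi' : i ∈ range J := hi
    have hj' : j ∈ range J := hj
    have h1 := hv2 i hi'
    have h2 := hv3 i hi'
    have h3 := hv2 j hj'
    have h4 := hv3 j hj'
    rw [hij] at h1 h2
    rcases lt_or_gt_of_ne hne with h | h
    · have := bandT_lt R₀ K h
      linarith
    · have := bandT_lt R₀ K h
      linarith
  have hScard : ((range J).image v).card = J := by
    rw [Finset.card_image_of_injOn hinj, Finset.card_range]
  have hSsupp : ∀ u ∈ (range J).image v, u ∈ p.support := by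
    intro u hu
    obtain ⟨j, hj, rfl⟩ := Finset.mem_image.mp hu
    exact hv1 j hj
  have hj0' : j0 ∈ range J := Finset.mem_range.mpr hj0
  exact ⟨v j0, hv1 j0 hj0', mem_cluster_of_walk p _ hSsupp (by rw [hScard]; exact hkJ)
    (hv1 j0 hj0'), hv2 j0 hj0', hv3 j0 hj0'⟩

lemma supN_le_of_norm_le {z : GaussianInt} {R : ℝ} (hR : 0 ≤ R) {R₀ : ℕ} (hR₀ : R ≤ R₀)
    (hz : (z.norm : ℝ) ≤ R ^ 2) : supN z ≤ R₀ := by
  have h1 : ((supN z : ℤ) : ℝ) ^ 2 ≤ R ^ 2 := by
    have := supN_sq_le_norm z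
    have h2 : ((supN z ^ 2 : ℤ) : ℝ) ≤ ((z.norm : ℤ) : ℝ) := by exact_mod_cast this
    push_cast at h2
    linarith
  have h2 : ((supN z : ℤ) : ℝ) ≤ R := (abs_le_of_sq_le_sq' h1 hR).2
  have h3 : ((supN z : ℤ) : ℝ) ≤ R₀ := h2.trans hR₀
  exact_mod_cast h3

lemma le_supN_of_le_norm {w : GaussianInt} {R : ℝ} (hR : 100 ≤ R) {R₀ : ℕ} (hR₀ : (R₀ : ℝ) < R + 1)
    (hw : 9 * R ^ 2 ≤ (w.norm : ℝ)) : 2 * (R₀ : ℤ) ≤ supN w := by
  by_contra hne
  push Not at hne
  have h1 : supN w ≤ 2 * (R₀ : ℤ) - 1 := by omega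
  have h2 := norm_le_supN w
  have h3 := supN_nonneg w
  have h4 : ((supN w : ℤ) : ℝ) ≤ 2 * R₀ - 1 := by exact_mod_cast h1
  have h5 : (0 : ℝ) ≤ ((supN w : ℤ) : ℝ) := by exact_mod_cast h3
  have h6 : ((w.norm : ℤ) : ℝ) ≤ 2 * ((supN w : ℤ) : ℝ) ^ 2 := by exact_mod_cast h2
  have h7 : ((supN w : ℤ) : ℝ) ≤ 2 * R + 1 := by linarith
  have h8 : ((supN w : ℤ) : ℝ) ^ 2 ≤ (2 * R + 1) ^ 2 := pow_le_pow_left₀ h5 h7 2
  nlinarith only [h6, h8, hw, hR]

lemma norm_le_of_band {z : GaussianInt} {R₀ : ℕ} (h : supN z ≤ 2 * (R₀ : ℤ)) :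
    (z.norm : ℝ) ≤ 8 * (R₀ : ℝ) ^ 2 := by
  have h1 := norm_le_supN z
  have h4 := supN_nonneg z
  have h5 : ((supN z : ℤ) : ℝ) ≤ 2 * R₀ := by exact_mod_cast h
  have h6 : (0 : ℝ) ≤ ((supN z : ℤ) : ℝ) := by exact_mod_cast h4
  have h7 : ((z.norm : ℤ) : ℝ) ≤ 2 * ((supN z : ℤ) : ℝ) ^ 2 := by exact_mod_cast h1
  have h8 := pow_le_pow_left₀ h6 h5 2
  nlinarith only [h7, h8]

/-- The arithmetic of the number of bands. -/
lemma bands_param (R : ℝ) (K k R₀ : ℕ) (hk : 1 ≤ k) (hR0 : 4 * ((K : ℝ) + 1) * (k + 2) ≤ R)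
    (hR₀ge : R ≤ R₀) (hR₀2 : 100 ≤ R₀) :
    ((R₀ - 1) / (K + 1)) * (K + 1) + 1 ≤ R₀ ∧ k ≤ (R₀ - 1) / (K + 1) ∧
      R / (2 * ((K : ℝ) + 1)) ≤ (((R₀ - 1) / (K + 1) : ℕ) : ℝ) := by
  set J := (R₀ - 1) / (K + 1) with hJ
  have h1 : J * (K + 1) ≤ R₀ - 1 := Nat.div_mul_le_self _ _
  have h2 : R₀ - 1 < (J + 1) * (K + 1) := by
    have := Nat.lt_succ_iff.mpr (Nat.le_refl ((R₀ - 1) / (K + 1)))
    exact Nat.lt_mul_of_div_lt this (by positivity)
  have h3 : ((R₀ - 1 : ℕ) : ℝ) < (((J + 1) * (K + 1) : ℕ) : ℝ) := by exact_mod_cast h2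
  push_cast [Nat.cast_sub (show 1 ≤ R₀ by omega)] at h3
  have hK1 : (1 : ℝ) ≤ (K : ℝ) + 1 := by
    have : (0 : ℝ) ≤ K := by positivity
    linarith
  have hk1 : (1 : ℝ) ≤ k := by exact_mod_cast hk
  have hJlow : R / (2 * ((K : ℝ) + 1)) ≤ J := by
    rw [div_le_iff₀ (by positivity)]
    have h4 : 4 * ((K : ℝ) + 1) ≤ R := by nlinarith only [hR0, hK1, hk1]
    have e : ((J : ℝ) + 1) * ((K : ℝ) + 1) = J * ((K : ℝ) + 1) + ((K : ℝ) + 1) := by ring
    nlinarith only [h3, h4, hR₀ge, e, hK1]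
  refine ⟨by omega, ?_, hJlow⟩
  have h5 : (k : ℝ) ≤ R / (2 * ((K : ℝ) + 1)) := by
    rw [le_div_iff₀ (by positivity)]
    have hk0 : (0 : ℝ) ≤ k := by positivity
    nlinarith only [hR0, hK1, hk0]
  have h6 : (k : ℝ) ≤ J := h5.trans hJlow
  exact_mod_cast h6

/-- Moats up to a tiny set of bridges. -/
theorem near_moat (D : ℝ) (A : ℕ) :
    ∃ R0 : ℝ, ∀ R ≥ R0, ∃ W : Finset GaussianInt,
      (W.card : ℝ) ≤ R / Real.log R ^ A ∧ (∀ u ∈ W, Irreducible u) ∧
      ∀ z w : {z : GaussianInt // Irreducible z},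
        (z.1.norm : ℝ) ≤ R ^ 2 → 9 * R ^ 2 ≤ (w.1.norm : ℝ) →
        ∀ p : (moatGraph D).Walk z w, ∃ v ∈ p.support, v.1 ∈ W := by
  classical
  obtain ⟨C0, x0, hC0⟩ := cluster_density D (A + 1) (by omega)
  set K := ⌈|D|⌉₊ with hKdef
  have hK : |D| ≤ K := Nat.le_ceil _
  have hK₁pos : (0 : ℝ) < (K : ℝ) + 1 := by positivity
  obtain ⟨R1, hR1⟩ := bridge_numeric ((|C0| + 1) * (2 * ((K : ℝ) + 1))) (by positivity) A
  refine ⟨max (max (max R1 (Real.sqrt (|x0| + 1))) 100)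
    (4 * ((K : ℝ) + 1) * (((A + 1 : ℕ) : ℝ) + 2)), ?_⟩
  intro R hR
  have hRa : R1 ≤ R := ((le_max_left _ _).trans ((le_max_left _ _).trans (le_max_left _ _))).trans hR
  have hRb : Real.sqrt (|x0| + 1) ≤ R :=
    ((le_max_right _ _).trans ((le_max_left _ _).trans (le_max_left _ _))).trans hR
  have hRc : (100 : ℝ) ≤ R := ((le_max_right _ _).trans (le_max_left _ _)).trans hR
  have hRd : 4 * ((K : ℝ) + 1) * (((A + 1 : ℕ) : ℝ) + 2) ≤ R := (le_max_right _ _).trans hR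
  have hRpos : 0 < R := by linarith
  obtain ⟨R₀, hR₀⟩ : ∃ R₀ : ℕ, R₀ = ⌈R⌉₊ := ⟨_, rfl⟩
  have hR₀ge : R ≤ R₀ := by rw [hR₀]; exact Nat.le_ceil _
  have hR₀lt : (R₀ : ℝ) < R + 1 := by rw [hR₀]; exact Nat.ceil_lt_add_one hRpos.le
  have hR₀2 : 100 ≤ R₀ := by
    have : (100 : ℝ) ≤ R₀ := by linarith
    exact_mod_cast this
  obtain ⟨x, hx⟩ : ∃ x : ℝ, x = 8 * (R₀ : ℝ) ^ 2 := ⟨_, rfl⟩
  have hR₀0 : (0 : ℝ) ≤ R₀ := by positivity
  have hxlow : R ^ 2 ≤ x := by
    rw [hx]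
    nlinarith only [hR₀ge, hRpos, hR₀0]
  have hxhigh : x ≤ 32 * R ^ 2 := by
    rw [hx]
    have h1 : (R₀ : ℝ) ≤ 2 * R := by linarith
    nlinarith only [h1, hR₀0]
  have hxx0 : x0 ≤ x := by
    have h1 : |x0| + 1 ≤ R ^ 2 := (Real.sqrt_le_left hRpos.le).mp hRb
    have h2 := le_abs_self x0
    linarith
  obtain ⟨hfin, hcount⟩ := hC0 x hxx0
  have hxe : Real.exp 1 ≤ x := by
    have := Real.exp_one_lt_d9
    nlinarith only [this, hxlow, hRc]
  have hlogx : 1 ≤ Real.log x := by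
    rw [Real.le_log_iff_exp_le (lt_of_lt_of_le (Real.exp_pos 1) hxe)]; exact hxe
  have hXcard : ((hfin.toFinset.card : ℕ) : ℝ) ≤
      (|C0| + 1) * x * (Real.log (Real.log x) / Real.log x) ^ (A + 1) := by
    rw [← Set.ncard_eq_toFinset_card _ hfin]
    refine hcount.trans ?_
    have hlog : 0 ≤ (Real.log (Real.log x) / Real.log x) ^ (A + 1) :=
      pow_nonneg (div_nonneg (Real.log_nonneg hlogx) (by linarith)) _
    have hxnn : 0 ≤ x := by rw [hx]; positivity
    have h2 : C0 ≤ |C0| + 1 := by linarith [le_abs_self C0]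
    exact mul_le_mul_of_nonneg_right (mul_le_mul_of_nonneg_right h2 hxnn) hlog
  obtain ⟨hJ1, hJk, hJlow⟩ := bands_param R K (A + 1) R₀ (by omega) hRd hR₀ge hR₀2
  obtain ⟨J, hJdef⟩ : ∃ J : ℕ, J = (R₀ - 1) / (K + 1) := ⟨_, rfl⟩
  rw [← hJdef] at hJ1 hJk hJlow
  have hJpos : 0 < J := by omega
  obtain ⟨j0, hj0, hj0card⟩ := exists_thin_band hfin.toFinset R₀ K J hJpos
  refine ⟨bandPart hfin.toFinset R₀ K j0, ?_, ?_, ?_⟩
  · refine hj0card.trans ?_
    have hJr : (0 : ℝ) < J := by exact_mod_cast hJpos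
    have h1 := hR1 R hRa x hxlow hxhigh
    have hRdiv : 0 < R / (2 * ((K : ℝ) + 1)) := by positivity
    have hnum : 0 ≤ (|C0| + 1) * x * (Real.log (Real.log x) / Real.log x) ^ (A + 1) :=
      le_trans (by positivity) hXcard
    calc ((hfin.toFinset.card : ℕ) : ℝ) / J
        ≤ ((|C0| + 1) * x * (Real.log (Real.log x) / Real.log x) ^ (A + 1)) / J :=
          div_le_div_of_nonneg_right hXcard hJr.le
      _ ≤ ((|C0| + 1) * x * (Real.log (Real.log x) / Real.log x) ^ (A + 1)) /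
            (R / (2 * ((K : ℝ) + 1))) :=
          div_le_div_of_nonneg_left hnum hRdiv hJlow
      _ = ((|C0| + 1) * (2 * ((K : ℝ) + 1)) * x *
            (Real.log (Real.log x) / Real.log x) ^ (A + 1)) / R := by
          field_simp
      _ ≤ (R ^ 2 / Real.log R ^ A) / R := div_le_div_of_nonneg_right h1 hRpos.le
      _ = R / Real.log R ^ A := by
          have hne : R ≠ 0 := hRpos.ne'
          rw [div_div, mul_comm (Real.log R ^ A) R, ← div_div, sq, mul_div_assoc, div_self hne]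
          ring
  · intro u hu
    have h1 := (Finset.mem_filter.mp hu).1
    rw [Set.Finite.mem_toFinset] at h1
    exact h1.1.1
  · intro z w hz hw p
    obtain ⟨v, hv, hcl, hb1, hb2⟩ := walk_band hK R₀ J (A + 1) hJ1 hJk p
      (supN_le_of_norm_le hRpos.le hR₀ge hz) (le_supN_of_le_norm hRc hR₀lt hw) j0
      (Finset.mem_range.mp hj0)
    refine ⟨v, hv, Finset.mem_filter.mpr ⟨?_, hb1, hb2⟩⟩
    rw [Set.Finite.mem_toFinset]
    refine ⟨hcl, ?_⟩
    obtain ⟨_, h2⟩ := bandT_bounds R₀ K J j0 hJ1 (Finset.mem_range.mp hj0)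
    rw [hx]
    exact norm_le_of_band (by linarith)

end Vale.Agent.Lib.P015
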